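import Vale.Agent.P366.Stmt

/-! Strictly convex bodies with smooth support functions: definitions. -/

open MeasureTheory Metric
open scoped ContDiff

noncomputable section
namespace Vale.Agent.P366.Convex

open Vale.Agent.P366.Stmt

variable {n : ℕ}

/-- `h` is the support function of a compact strictly convex body whose boundary is smooth with
positive principal curvatures: it is homogeneous of degree one, smooth outside the origin, and
its Hessian at a unit vector is positive definite on the orthogonal space. -/
structure IsSupport (h : E n → ℝ) : Prop where
  smooth : ∀ x, x ≠ 0 → ContDiffAt ℝ ∞ h x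
  hom : ∀ x, x ≠ 0 → ∀ r : ℝ, 0 < r → h (r • x) = r * h x
  pos : ∀ x : E n, len x = 1 → ∀ v : Fin n → ℝ, ∑ i, x i * v i = 0 → v ≠ 0 →
    0 < ∑ i, ∑ j, pd i (pd j h) x * v i * v j

/-- The point `∇h(x) + s x`: the point at the distance `s` of the body on the normal ray with the
direction `x`, where `x` is a unit vector. -/
def ray (h : E n → ℝ) (x : E n) (s : ℝ) : E n := WithLp.toLp 2 fun i => pd i h x + s * x i

end Vale.Agent.P366.Convex
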