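import Vale.Agent.P366.H745.CH.Lev

/-! Level sets, in the letters of the null cone of a convex body. -/

open MeasureTheory Metric Filter Topology Set
open scoped ContDiff ENNReal

noncomputable section
namespace Vale.Agent.P366.CH

open Vale.Agent.P366 (pd E flux fderiv_eq_sum_pd)
open Vale.Agent.P366.H353.N
open Vale.Agent.P366.Kerr (NullCone Psi)
open Vale.Agent.P366.KSN (Y dts sg Ms Ws bflux OO mem_OO smH homH dts_pos sg_pos stmt_pd stmt_pd2)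

variable {n : ℕ} {C : NullCone n} {x z : E n} {ρ : ℝ}

/-- The support function of the body. -/
def sf (C : NullCone n) (ρ : ℝ) (z : E n) : ℝ := C.H z + ρ * ‖z‖

lemma sf_sm (C : NullCone n) (ρ : ℝ) : Sm (sf C ρ) := (smH C).add ((Sm.const ρ).mul Sm.norm)

lemma sf_hom (C : NullCone n) (ρ : ℝ) : Hom 1 (sf C ρ) := (homH C).add (Hom.norm.cmul ρ)

lemma pd_sf (C : NullCone n) (ρ : ℝ) (hz : z ≠ 0) (i : Fin n) :
    pd i (sf C ρ) z = pd i C.H z + ρ * X3.nv i z := by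
  unfold sf
  rw [pd_add' (smH C) ((Sm.const ρ).mul Sm.norm) hz, pd_cmul' Sm.norm ρ hz, pd_norm' hz]
  rfl

lemma hs_sf (C : NullCone n) (ρ : ℝ) (hx : ‖x‖ = 1) (i j : Fin n) :
    hs (sf C ρ) i j x = Ws C.H ρ x i j := by
  have hx0 := ne_zero_of_one hx
  unfold hs
  rw [pd_congr' (f := fun z => pd j C.H z + ρ * X3.nv j z) (fun z hz => pd_sf C ρ hz j) hx0,
    pd_add' ((smH C).pd j) ((Sm.const ρ).mul (X3.sm_nv j)) hx0, pd_cmul' (X3.sm_nv j) ρ hx0,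
    X3.pd_nv hx i j]
  rfl

lemma hm_sf (C : NullCone n) (ρ : ℝ) (hx : ‖x‖ = 1) : hm (sf C ρ) x = Ms C.H ρ x := by
  ext i j
  simp only [hm, Ms, Matrix.of_apply, hs_sf C ρ hx]

lemma gp_sf (hU : ∀ x, x ≠ 0 → C.U x = ρ) (hx : ‖x‖ = 1) : gp (sf C ρ) x = bp C x := by
  have hx0 := ne_zero_of_one hx
  ext i
  change pd i (sf C ρ) x = pd i C.H x + C.U x * x i
  rw [pd_sf C ρ hx0, hU x hx0]
  unfold X3.nv
  rw [hx, div_one]

lemma gp_sf' (C : NullCone n) (ρ : ℝ) (hz : z ≠ 0) :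
    gp (sf C ρ) z = gp (sf C ρ) (‖z‖⁻¹ • z) := by
  have hr : 0 < ‖z‖⁻¹ := inv_pos.mpr (norm_pos_iff.mpr hz)
  ext i
  change pd i (sf C ρ) z = pd i (sf C ρ) (‖z‖⁻¹ • z)
  have := ((sf_hom C ρ).pd (sf_sm C ρ) i) z hz _ hr
  rw [this]
  norm_num

theorem lev_body [Fact (3 ≤ n)] (C : NullCone n) {ρ : ℝ} (hU : ∀ x, x ≠ 0 → C.U x = ρ)
    {f : E n → ℝ} (hf : Stmt.Smooth f)
    (hlev : ∀ x y : E n, ‖x‖ = 1 → ‖y‖ = 1 → f (bp C x) = f (bp C y)) {x : E n} (hx : ‖x‖ = 1) :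
    0 < mc C x ∧ H45G.Lev f (((n : ℝ) - 1) / mc C x) (fun i => x i)
      (∑ i, Stmt.pd i f (bp C x) * x i) (bp C x) := by
  have h3 := Fact.out (p := 3 ≤ n)
  have hn1 : (n : ℝ) - 1 ≠ 0 := by
    have : (3 : ℝ) ≤ n := by exact_mod_cast h3
    linarith
  have hx0 := ne_zero_of_one hx
  have hxx : ∑ i, x i * x i = 1 := sum_mul_self hx
  have hdp := dts_pos C hx (le_refl (C.U x))
  have hsp := sg_pos C hx (le_refl (C.U x))
  have hmc : 0 < mc C x := div_pos hsp hdp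
  refine ⟨hmc, ?_⟩
  have hM : hm (sf C ρ) x = Ms C.H (C.U x) x := by rw [hm_sf C ρ hx, hU x hx0]
  have hdet : (hm (sf C ρ) x).det ≠ 0 := by rw [hM]; exact hdp.ne'
  have hc : ∀ z, z ≠ 0 → f (gp (sf C ρ) z) = f (bp C x) := by
    intro z hz
    have h1 : ‖‖z‖⁻¹ • z‖ = 1 := by
      rw [norm_smul, norm_inv, norm_norm, inv_mul_cancel₀ (norm_ne_zero_iff.mpr hz)]
    rw [gp_sf' C ρ hz, gp_sf hU h1]
    exact hlev _ _ h1 hx
  obtain ⟨h1, h2⟩ := lev_gp (sf_sm C ρ) (sf_hom C ρ) hx hdet hf hc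
  rw [gp_sf hU hx] at h1 h2
  have hfd : DifferentiableAt ℝ f (bp C x) := (hf.differentiable (by simp)) _
  have hp : ∀ i, Stmt.pd i f (bp C x) = pd i f (bp C x) := fun i => stmt_pd hfd i
  have hpp : ∀ i j, Stmt.pd i (Stmt.pd j f) (bp C x) = hs f i j (bp C x) := fun i j =>
    stmt_pd2 hf.contDiffAt i j
  simp only [hp]
  have hmt : mc C x = (hm (sf C ρ) x)⁻¹.trace - 1 := by
    rw [hM, Matrix.inv_def, Matrix.trace_smul, smul_eq_mul, Ring.inverse_eq_inv']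
    unfold mc sg
    change ((Ms C.H (C.U x) x).adjugate.trace - (Ms C.H (C.U x) x).det) /
      (Ms C.H (C.U x) x).det = _
    have hd : (Ms C.H (C.U x) x).det ≠ 0 := hdp.ne'
    field_simp
  refine ⟨?_, fun i => ?_, ?_⟩
  · rw [← hxx]
    exact Finset.sum_congr rfl fun i _ => by ring
  · rw [hp, h1 i]
  · unfold H45G.lap
    simp only [hpp]
    rw [h2, ← hmt, div_div_cancel₀ hn1]

theorem levAll [Fact (3 ≤ n)] : LevAll n :=
  ⟨fun C _ hU _ hf hlev _ hx => lev_body C hU hf hlev hx⟩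

end Vale.Agent.P366.CH
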