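import Vale.Agent.P366.H745.CH.Defs
import Vale.Agent.P366.H745.N3
import Vale.Agent.P366.H208.N.X3c

/-! Minkowski's inequality for a strictly convex body. -/

open MeasureTheory Metric Filter Topology Set
open scoped ContDiff ENNReal

noncomputable section
namespace Vale.Agent.P366.CH

open Vale.Agent.P366 (pd E flux)
open Vale.Agent.P366.H353.N
open Vale.Agent.P366.Kerr (NullCone Psi)
open Vale.Agent.P366.KSN (Y dts sg Ms bflux OO mem_OO)

variable {n : ℕ} {C : NullCone n} {x : E n} {ρ : ℝ}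

lemma pdU_zero (hU : ∀ x, x ≠ 0 → C.U x = ρ) (hx : x ≠ 0) (j : Fin n) : pd j C.U x = 0 := by
  rw [pd_congr' (f := fun _ => ρ) (fun z hz => hU z hz) hx, Vale.Agent.P366.pd_const]

lemma b_zero (hU : ∀ x, x ≠ 0 → C.U x = ρ) (hx : x ≠ 0) (i : Fin n) : C.toDat.b x i = 0 := by
  show ∑ j, (C.toDat.M x)⁻¹ i j * (‖x‖ * pd j C.U x) = 0
  simp only [pdU_zero hU hx, mul_zero, Finset.sum_const_zero]

lemma bflux_body (hU : ∀ x, x ≠ 0 → C.U x = ρ) (Z : Fin n → E n → ℝ) (hx : ‖x‖ = 1) :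
    bflux C Z 0 x = dts C.H (C.U x) x * ∑ i, Z i (bp C x) * x i := by
  rw [KSL.bflux_zero C Z hx]
  congr 1
  exact Finset.sum_congr rfl fun i _ => by rw [b_zero hU (ne_zero_of_one hx), sub_zero]; rfl

/-- Minkowski's inequality. -/
theorem mink_body [Fact (3 ≤ n)] (hU : ∀ x, x ≠ 0 → C.U x = ρ) :
    1 / 2 * (SI (fun x => dts C.H (C.U x) x) / om n) ^ (((n : ℝ) - 2) / ((n : ℝ) - 1)) ≤
      SI (fun x => sg C.H (C.U x) x) / (2 * ((n : ℝ) - 1) * om n) := by
  obtain ⟨T, hTA, hTb, -⟩ := toTen C.toDat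
  have hb : ∀ y : E n, y ≠ 0 → ∀ i, T.b y i = 0 := by
    intro y hy i
    rw [hTb]
    exact b_zero hU hy i
  have hq : ∀ x : E n, ‖x‖ = 1 → sg C.H (C.U x) x =
      (1 - ∑ i, T.b x i ^ 2) * H353.N.tr (T.A x) -
      2 * (∑ i, ∑ j, T.A x i j * pd i (fun y => T.b y j) x) + 2 * qf (T.A x) (T.b x) (T.b x) := by
    intro x hx
    have hx0 := ne_zero_of_one hx
    have e1 : ∀ i j, pd i (fun y => T.b y j) x = 0 := fun i j => by
      rw [pd_congr' (f := fun _ => 0) (fun z hz => hb z hz j) hx0, Vale.Agent.P366.pd_const]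
    have e2 : T.b x = 0 := funext fun i => hb x hx0 i
    have e3 : H353.N.tr (T.A x) = sg C.H (C.U x) x := by
      rw [hTA]
      exact H353.N.X3.tr_A C.toDat hx
    simp only [e1, e2, e3]
    simp [qf]
  have h := Shell.shell_frame C.toDat T hTA hTb (q := fun x => sg C.H (C.U x) x) hq 0
  have h0 : Shell.e0 (0 : Fin n → ℝ) = 1 := by
    unfold Shell.e0
    simp
  have h1 : SI C.toDat.dt = SI (fun x => dts C.H (C.U x) x) :=
    SI_congr fun x hx => KSL.toDat_dt C hx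
  rw [h0, h1, one_mul] at h
  simpa using h

end Vale.Agent.P366.CH
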