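import Vale.Agent.P366.H745.CH.Final4

/-! Several convex horizons: the form used in the hand-in. -/

open MeasureTheory Metric Filter Topology Set
open scoped ContDiff ENNReal

noncomputable section
namespace Vale.Agent.H745C

open Vale.Agent.P366.Convex
open Vale.Agent.P366.Kerr (IsCut)
open Vale.Agent.P366.Stmt
open Vale.Agent.P366.GraphClass

variable {n : ℕ}

/-- A decaying constant vanishes. -/
lemma bigO_const [Fact (3 ≤ n)] {a c : ℝ} (ha : 0 < a) (h : BigO a fun _ : E n => c) : c = 0 := by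
  obtain ⟨C, R, hC⟩ := h
  obtain ⟨e, he⟩ := Vale.Agent.P366.KSN.exists_unit' (n := n)
    (by have := Fact.out (p := 3 ≤ n); omega)
  have h1 : ∀ᶠ r : ℝ in atTop, |c| ≤ C * r ^ (-a) := by
    filter_upwards [eventually_gt_atTop (max R 0)] with r hr
    have hr0 : 0 < r := (le_max_right _ _).trans_lt hr
    have hl : len (r • e) = r := by
      show ‖r • e‖ = r
      rw [norm_smul, he, mul_one, Real.norm_eq_abs, abs_of_pos hr0]
    have := hC (r • e) (by rw [hl]; exact (le_max_left _ _).trans_lt hr)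
    rwa [hl] at this
  have h2 : Tendsto (fun r : ℝ => C * r ^ (-a)) atTop (𝓝 (C * 0)) :=
    (tendsto_rpow_neg_atTop ha).const_mul C
  rw [mul_zero] at h2
  have h3 : |c| ≤ 0 := ge_of_tendsto h2 h1
  exact abs_eq_zero.1 (le_antisymm h3 (abs_nonneg _))

lemma y_zero (hn : 3 ≤ n) {Y : Fin n → E n → ℝ} {y : Fin n → ℝ} {a : ℝ}
    (ha : (n : ℝ) / 2 - 1 < a) (h : ∀ i, BigO a fun x => Y i x - y i)
    (hY : ∀ i x, Y i x = 0) (i : Fin n) : y i = 0 := by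
  have : Fact (3 ≤ n) := ⟨hn⟩
  have hn3 : (3 : ℝ) ≤ n := by exact_mod_cast hn
  have h1 := h i
  simp only [hY, zero_sub] at h1
  have := bigO_const (n := n) (by linarith) h1
  linarith

theorem part2 (hn : 3 ≤ n) {D D' : Exterior n} (hO : IsCut D' D) (hAF : D.IsAF)
    (hD : D'.DEC) (hT : D'.Trapped) {m : ℝ} (hm : D.IsEnergy m) :
    ∀ (N : ℕ) (h : Fin N → E n → ℝ) (f u : E n → ℝ) (Y : Fin n → E n → ℝ) (y P : Fin n → ℝ),
      (∀ k, IsSupport (h k)) →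
      (∀ j k, j ≠ k → ∀ z : E n, ¬ ((∀ x, len x = 1 → ∑ i, x i * z i ≤ h j x) ∧
        ∀ x, len x = 1 → ∑ i, x i * z i ≤ h k x)) →
      (∀ z, D'.F z < 0 ↔ ∃ k, ∀ x, len x = 1 → ∑ i, x i * z i < h k x) →
      Smooth f → Smooth u → (∀ i, Smooth (Y i)) →
      (∀ k x z, len x = 1 → len z = 1 → f (ray (h k) x 0) = f (ray (h k) z 0)) →
      (∀ x, 0 ≤ D'.F x → ∀ i j, D'.g x i j = graphMetric f x i j) →
      (∀ k x, len x = 1 → ∃ l : ℝ,
        (1 + u (ray (h k) x 0) * ∑ i, pd i f (ray (h k) x 0) * x i) ^ 2 ≤ l ∧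
        ∀ i, Y i (ray (h k) x 0) = -(l * (x i / slope f (ray (h k) x 0) ^ 2))) →
      (∃ a : ℝ, (n : ℝ) / 2 - 1 < a ∧
        ∀ i, (BigO a fun x => Y i x - y i) ∧ BigO a fun x => u x * pd i f x) →
      (∃ b : ℝ, (n : ℝ) - 1 < b ∧ ∀ i, BigO b fun x => u x * mform D'.K f u i x) →
      (∀ x, 0 < D'.F x → StarAt D'.g D'.K f u Y x) →
      (D.IsMomentum P ∨ ∀ i x, Y i x = 0) →
      (D.Amin ≤ D.area D'.F ∧ D.area D'.F ≠ ⊤ ∧
        1 / 2 * (D.Amin.toReal / omega n) ^ (((n : ℝ) - 2) / (n - 1)) ≤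
          1 / 2 * ((D.area D'.F).toReal / omega n) ^ (((n : ℝ) - 2) / (n - 1)) ∧
        1 / 2 * ((D.area D'.F).toReal / omega n) ^ (((n : ℝ) - 2) / (n - 1)) ≤
          m - 1 / 2 * ∑ j, y j * P j) ∧
      (2 ≤ N → 1 / 2 * ((D.area D'.F).toReal / omega n) ^ (((n : ℝ) - 2) / (n - 1)) <
        m - 1 / 2 * ∑ j, y j * P j) ∧
      ((∀ j, m * y j = 2 * P j) → ∑ j, y j ^ 2 < 4 → √(∑ j, P j ^ 2) < m ∧
        1 / 2 * ((D.area D'.F).toReal / omega n) ^ (((n : ℝ) - 2) / (n - 1)) ≤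
          √(m ^ 2 - ∑ j, P j ^ 2)) := by
  intro N h f u Y y P hs hsep hS hf hu hY hlev hg hYS hinf hb hst hP
  obtain ⟨p1, p2, p3, p4, p5, p6, -, p8⟩ := final4 hn D D' hO hAF hD hT m hm h hs
    hsep hS f hf hlev hg _ rfl
  obtain ⟨r1, r2⟩ := p8 u Y y hu hY hYS hinf hb hst
  have hE : 1 / 2 * ∑ k, (surfArea (h k) / omega n) ^ (((n : ℝ) - 2) / (n - 1)) ≤
      m - (∑ j, y j * P j) / 2 := by
    rcases hP with hP | hY0
    · exact (r2 P hP).1
    · obtain ⟨a, ha, hYa⟩ := hinf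
      have hy := y_zero hn ha (fun i => (hYa i).1) hY0
      simp only [hy, zero_mul, Finset.sum_const_zero, zero_div, sub_zero]
      exact r1 hY0
  have q2 := momentum_alg4 (y := y) (P := P) p3 hE
  have e : (∑ j, y j * P j) / 2 = 1 / 2 * ∑ j, y j * P j := by ring
  rw [e] at hE
  refine ⟨⟨p1, p2, p4, p5.trans hE⟩, fun hN => (p6 ?_).trans_le hE, fun ha hb =>
    ⟨(q2 ha hb).1, p5.trans (q2 ha hb).2⟩⟩
  exact ⟨⟨0, by omega⟩, ⟨1, by omega⟩, by simp⟩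

end Vale.Agent.H745C
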