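import Vale.Agent.P366.H745.CH.LevB
import Vale.Agent.P366.H375.CH.Stokes
import Vale.Agent.P366.H222.N.X7

/-! The energy bounds outside several convex bodies. -/

open MeasureTheory Metric Filter Topology Set
open scoped ContDiff ENNReal

noncomputable section
namespace Vale.Agent.H745C

open Vale.Agent.P366 (flux omega_pos')
open Vale.Agent.P366.CH
open Vale.Agent.P366.H353.N (Sm SI SI_mono om ne_zero_of_one)
open Vale.Agent.P366.Kerr (NullCone)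
open Vale.Agent.P366.KSN (Y dts sg bflux OO dts_pos sg_cont dts_cont smU bflux_cont stmt_pd)
open Vale.Agent.P366.H375.CH (stokes_bodies_le stokes_bodies_eq)
open Vale.Agent.P366.Stmt
open Vale.Agent.H45G

variable {n : ℕ}

lemma om_omega (n : ℕ) : Vale.Agent.P366.omega n = om n := by
  rw [← Vale.Agent.P366.omega_eq, Vale.Agent.P366.KSN.om_eq]

section

variable {ι : Type} {C : ι → NullCone n}

lemma cov {D : Exterior n} (hB : Bodies D.F C) : ∃ R0 : ℝ, ∀ k (y : E n), R0 < ‖y‖ →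
    ∃ x s, ‖x‖ = 1 ∧ (C k).U x ≤ s ∧ Y (C k).H x s = y := by
  obtain ⟨R0, hR0⟩ := D.dom.2.2.2
  exact ⟨R0, fun k y hy => (hB.dom y).1 (hR0 y hy).le k⟩

omit ι C in
lemma bflux_co (C : NullCone n) {Z : Fin n → E n → ℝ} (hZ : ∀ i, ContDiff ℝ 1 (Z i)) :
    ContinuousOn (bflux C Z 0) (sphere 0 1) := by
  have h0 : ∀ i x s, ‖x‖ = 1 → C.U x ≤ s → ContinuousAt (Z i) (Y C.H x s) :=
    fun i x s _ _ => (hZ i).continuous.continuousAt
  have h1 : ContinuousOn (fun p : ℝ × E n => bflux C Z p.1 p.2) (Ici 0 ×ˢ sphere 0 1) :=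
    bflux_cont C h0 subset_rfl
  have h2 : ContinuousOn (fun x : E n => ((0 : ℝ), x)) (sphere 0 1) :=
    continuousOn_const.prodMk continuousOn_id
  have hm : MapsTo (fun x : E n => ((0 : ℝ), x)) (sphere 0 1) (Ici 0 ×ˢ sphere 0 1) :=
    fun x hx => ⟨Set.mem_Ici.mpr (le_refl (0 : ℝ)), hx⟩
  exact ContinuousOn.comp (g := fun p : ℝ × E n => bflux C Z p.1 p.2)
    (f := fun x : E n => ((0 : ℝ), x)) h1 h2 hm

omit ι C in
lemma sg_le_bflux [Fact (3 ≤ n)] (C : NullCone n) {ρ : ℝ} (hU : ∀ x, x ≠ 0 → C.U x = ρ)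
    {Z : Fin n → E n → ℝ} {x : E n} (hx : ‖x‖ = 1) (h : mc C x ≤ ∑ i, Z i (bp C x) * x i) :
    sg C.H (C.U x) x ≤ bflux C Z 0 x := by
  rw [bflux_body hU Z hx]
  have hdp := dts_pos C hx (le_refl (C.U x))
  have e1 : sg C.H (C.U x) x = dts C.H (C.U x) x * mc C x := by
    unfold mc
    rw [mul_div_cancel₀ _ hdp.ne']
  rw [e1]
  exact mul_le_mul_of_nonneg_left h hdp.le

omit ι C in
lemma SI_sg_le [Fact (3 ≤ n)] (C : NullCone n) {ρ : ℝ} (hU : ∀ x, x ≠ 0 → C.U x = ρ)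
    {Z : Fin n → E n → ℝ} (hZ : ∀ i, ContDiff ℝ 1 (Z i))
    (h : ∀ x, ‖x‖ = 1 → mc C x ≤ ∑ i, Z i (bp C x) * x i) :
    SI (fun x => sg C.H (C.U x) x) ≤ SI (bflux C Z 0) :=
  SI_mono (sg_cont C (smU C)) (bflux_co C hZ) fun x hx => sg_le_bflux C hU hx (h x hx)

variable [Fintype ι]

/-- The flux inequality. -/
theorem flux_main [Fact (3 ≤ n)] {D : Exterior n} (hB : Bodies D.F C) {Z : Fin n → E n → ℝ}
    (hZ : ∀ i, Smooth (Z i)) (hpos : ∀ y, 0 < D.F y → 0 ≤ ∑ i, pd i (Z i) y)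
    (hbd : ∀ k x, ‖x‖ = 1 → mc (C k) x ≤ ∑ i, Z i (bp (C k) x) * x i) {e : ℝ}
    (he : Tendsto (flux Z) atTop (𝓝 e)) :
    ∑ k, SI (fun x => sg (C k).H ((C k).U x) x) ≤ e := by
  obtain ⟨R0, hcov⟩ := cov hB
  have hZ1 : ∀ i, ContDiff ℝ 1 (Z i) := fun i => (hZ i).of_le (by simp)
  have hd : ∀ y, (∀ k, y ∈ OO (C k)) → 0 ≤ ∑ i, Vale.Agent.P366.pd i (Z i) y := by
    intro y hy
    have h1 := hpos y (hB.pos_out D.dom.1 D.dom.2.1 hy)
    have h2 : ∀ i, pd i (Z i) y = Vale.Agent.P366.pd i (Z i) y := fun i =>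
      stmt_pd (((hZ i).differentiable (by simp)) y) i
    simpa only [h2] using h1
  have h3 := stokes_bodies_le hB.sep hcov hZ1 hd he
  refine le_trans (Finset.sum_le_sum fun k _ => ?_) h3
  obtain ⟨ρ, hρ⟩ := hB.rad k
  exact SI_sg_le (C k) hρ hZ1 (hbd k)

/-- the total area term -/
def bArea (C : ι → NullCone n) : ℝ :=
  ∑ k, 1 / 2 * (SI (fun x => dts (C k).H ((C k).U x) x) / om n) ^ (((n : ℝ) - 2) / ((n : ℝ) - 1))

theorem bArea_le [Fact (3 ≤ n)] (hr : ∀ k, ∃ ρ, ∀ x, x ≠ 0 → (C k).U x = ρ) {m S : ℝ}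
    (h : ∑ k, SI (fun x => sg (C k).H ((C k).U x) x) ≤
      2 * (((n : ℝ) - 1) * Vale.Agent.P366.omega n * m) -
        ((n : ℝ) - 1) * Vale.Agent.P366.omega n * S) :
    bArea C ≤ m - S / 2 := by
  have h3 := Fact.out (p := 3 ≤ n)
  have hn : (3 : ℝ) ≤ n := by exact_mod_cast h3
  rw [om_omega] at h
  have hom : 0 < om n := Vale.Agent.P366.H353.N.om_pos
  have hc : 0 < 2 * ((n : ℝ) - 1) * om n := mul_pos (by linarith) hom
  have h1 : bArea C ≤ ∑ k, SI (fun x => sg (C k).H ((C k).U x) x) / (2 * ((n : ℝ) - 1) * om n) := by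
    unfold bArea
    refine Finset.sum_le_sum fun k _ => ?_
    obtain ⟨ρ, hρ⟩ := hr k
    exact mink_body hρ
  rw [← Finset.sum_div] at h1
  refine h1.trans ?_
  rw [div_le_iff₀ hc]
  refine h.trans (le_of_eq ?_)
  ring

/-- the boundary flux density: the common part -/
lemma bdr_data [Fact (3 ≤ n)] {D : Exterior n} {f : E n → ℝ} (hT : D.Trapped)
    (hB : Bodies D.F C) (hf : Smooth f)
    (hg : ∀ x, 0 ≤ D.F x → ∀ i j, D.g x i j = gM f x i j)
    (hlev : ∀ k x y, ‖x‖ = 1 → ‖y‖ = 1 → f (bp (C k) x) = f (bp (C k) y))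
    (k : ι) {x : E n} (hx : ‖x‖ = 1) :
    0 < ((n : ℝ) - 1) / mc (C k) x ∧ ((n : ℝ) - 1) / (((n : ℝ) - 1) / mc (C k) x) = mc (C k) x ∧
    Lev f (((n : ℝ) - 1) / mc (C k) x) (fun i => x i) (∑ i, pd i f (bp (C k) x) * x i)
      (bp (C k) x) ∧
    ((n : ℝ) - 1) / (((n : ℝ) - 1) / mc (C k) x) * (√(W2 f (bp (C k) x)))⁻¹ +
      tt (fun i => x i) (D.K (bp (C k) x)) ≤ 0 := by
  have h3 := Fact.out (p := 3 ≤ n)
  have hn0 : 0 < (n : ℝ) - 1 := by
    have : (3 : ℝ) ≤ n := by exact_mod_cast h3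
    linarith
  have hFs := D.dom.1
  have hFne := D.dom.2.1
  obtain ⟨ρ, hρ⟩ := hB.rad k
  obtain ⟨hmc, hL⟩ := lev_body (C k) hρ hf (hlev k) hx
  obtain ⟨b, hb, hLF⟩ := hB.lev levAll hFs hFne hx
  have hr : 0 < ((n : ℝ) - 1) / mc (C k) x := div_pos hn0 hmc
  have hF0 := hB.bdr k x hx
  have h1 := hT _ hF0
  have h2 : thetaPlus D.g D.K D.F (bp (C k) x) = thetaPlus (gM f) D.K D.F (bp (C k) x) := by
    refine thetaPlus_congr (hg _ hF0.ge) (fun i j => rfl) fun i j k => ?_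
    exact pd_eq_of_eqOn hFs hFne (fun y hy => hg y hy i j) hF0.ge
      (diffAt (D.smooth i j).1 _) (diffAt (smooth_gM hf i j) _) k
  rw [h2, theta_lev D.K hf hr hb hL hLF] at h1
  exact ⟨hr, by rw [div_div_cancel₀ hn0.ne'], hL, h1⟩

/-- The energy-momentum bound. -/
theorem energyY [Fact (3 ≤ n)] {D : Exterior n} {f : E n → ℝ} {Y : Fin n → E n → ℝ}
    (hAF : D.IsAF) (hDEC : D.DEC) (hT : D.Trapped) {m : ℝ} (hm : D.IsEnergy m)
    {p : Fin n → ℝ} (hp : D.IsMomentum p)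
    (hB : Bodies D.F C) (hf : Smooth f) (hY : ∀ i, Smooth (Y i))
    (hg : ∀ x, 0 ≤ D.F x → ∀ i j, D.g x i j = gM f x i j)
    (hlev : ∀ k x y, ‖x‖ = 1 → ‖y‖ = 1 → f (bp (C k) x) = f (bp (C k) y))
    {y : Fin n → ℝ} {a : ℝ} (ha : (n : ℝ) / 2 - 1 < a)
    (hYa : ∀ i, BigO a fun x => Y i x - y i)
    (hYS : ∀ k x, ‖x‖ = 1 → ∃ l : ℝ, 1 ≤ l ∧
      ∀ i, Y i (bp (C k) x) = -(l * (x i / W2 f (bp (C k) x))))
    (hstar : ∀ x, 0 < D.F x → √(W2 f x) * (vlen (gM f) Y x * mu (gM f) D.K x +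
      pdy (gM f) (momT (gM f) D.K) Y x) ≤ scal (gM f) x) :
    bArea C ≤ m - (∑ j, y j * p j) / 2 := by
  have hn := Fact.out (p := 3 ≤ n)
  have hFs := D.dom.1
  have hKs : ∀ i j, Smooth fun x => D.K x i j := fun i j => (D.smooth i j).2
  have hPs := smooth_momT hf hKs
  have hYt : ∀ i, Smooth fun x => Vf f i x + Xy f (momT (gM f) D.K) Y i x := fun i =>
    (smooth_Vf hf i).add (smooth_Xy hf hPs hY i)
  have hlim := flux_infY hn hf hY hg hAF hm hp ha hYa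
  refine bArea_le hB.rad (flux_main hB hYt ?_ ?_ hlim)
  · intro x hF0
    have hev : ∀ᶠ y in 𝓝 x, 0 < D.F y :=
      (isOpen_lt continuous_const hFs.continuous).mem_nhds hF0
    obtain ⟨h1, h2, h3, h4, h5⟩ := germ (K := D.K) (K' := D.K)
      (hev.mono fun y hy i j => hg y hy.le i j) (Eventually.of_forall fun y i j => rfl)
    refine div_nonnegY hf hKs hY ?_ (hstar x hF0)
    have h6 := hDEC x hF0.le
    have h7 : covNorm D.g (mom D.g D.K) x = covNorm (gM f) (mom (gM f) D.K) x := by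
      simp only [covNorm, h1, h4]
    rwa [h7, h3] at h6
  · intro k x hx
    obtain ⟨hr, he, hL, hth⟩ := bdr_data hT hB hf hg hlev k hx
    obtain ⟨l, hl, hYl⟩ := hYS k x hx
    have h0 : 0 ≤ ((n : ℝ) - 1) / (((n : ℝ) - 1) / mc (C k) x) := by
      have : (3 : ℝ) ≤ n := by exact_mod_cast hn
      exact div_nonneg (by linarith) hr.le
    have h1 := bdry_geY D.K hL h0 hl hYl hth
    rwa [he] at h1

/-- The energy bound. -/
theorem energyU [Fact (3 ≤ n)] {D : Exterior n} {f u : E n → ℝ}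
    (hAF : D.IsAF) (hDEC : D.DEC) (hT : D.Trapped) {m : ℝ} (hm : D.IsEnergy m)
    (hB : Bodies D.F C) (hf : Smooth f) (hu : Smooth u)
    (hg : ∀ x, 0 ≤ D.F x → ∀ i j, D.g x i j = gM f x i j)
    (hlev : ∀ k x y, ‖x‖ = 1 → ‖y‖ = 1 → f (bp (C k) x) = f (bp (C k) y))
    (hua : ∀ k x, ‖x‖ = 1 → ((n : ℝ) - 1) / (((n : ℝ) - 1) / mc (C k) x) *
      (√(W2 f (bp (C k) x)))⁻¹ + tt (fun i => x i) (D.K (bp (C k) x)) ≤ 0 →
      Lev f (((n : ℝ) - 1) / mc (C k) x) (fun i => x i) (∑ i, pd i f (bp (C k) x) * x i)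
      (bp (C k) x) → 0 < ((n : ℝ) - 1) / mc (C k) x →
      u (bp (C k) x) * (∑ i, pd i f (bp (C k) x) * x i) = -1)
    (htilt : ∀ x, 0 < D.F x → u x ^ 2 * (W2 f x - 1) ≤ 1)
    (hstar : ∀ x, 0 < D.F x → mu (gM f) D.K x + √(W2 f x) * pin (gM f) D.K f u x ≤
      scal (gM f) x)
    (hdec : ∃ a, (n : ℝ) / 2 - 1 < a ∧ ∀ i, BigO a fun x => u x * pd i f x) :
    bArea C ≤ m := by
  have hn := Fact.out (p := 3 ≤ n)
  have hFs := D.dom.1
  have hKs : ∀ i j, Smooth fun x => D.K x i j := fun i j => (D.smooth i j).2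
  have hKy : ∀ x i j, D.K x i j = D.K x j i := fun x i j => (D.symm x i j).2
  have hPs := smooth_momT hf hKs
  have hpf : ∀ i, Smooth (pf f (momT (gM f) D.K) i) := fun i =>
    ContDiff.sum fun j _ => ContDiff.mul (hPs i j) (smooth_pd hf j)
  have hXs : ∀ i, Smooth (Xf f u (momT (gM f) D.K) i) := by
    intro i
    unfold Xf Yf qp
    refine ContDiff.mul (ContDiff.neg (ContDiff.mul hu (smooth_w hf))) (ContDiff.sub (hpf i) ?_)
    refine ContDiff.mul (ContDiff.mul (smooth_pd hf i) (ContDiff.sum fun j _ =>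
      ContDiff.mul (smooth_pd hf j) (hpf j))) ((smooth_W2 hf).inv fun x => W2_ne f x)
  have hY : ∀ i, Smooth fun x => Vf f i x + Xf f u (momT (gM f) D.K) i x := fun i =>
    (smooth_Vf hf i).add (hXs i)
  have hlim := flux_inf hn hf hu hKs hg (fun _ _ _ _ => rfl) hAF hm hdec
  have h := bArea_le (S := 0) (m := m) hB.rad ((flux_main hB hY ?_ ?_ hlim).trans
    (le_of_eq (by ring)))
  · simpa using h
  · intro x hF0
    have hev : ∀ᶠ y in 𝓝 x, 0 < D.F y :=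
      (isOpen_lt continuous_const hFs.continuous).mem_nhds hF0
    obtain ⟨h1, h2, h3, h4, h5⟩ := germ (K := D.K) (K' := D.K)
      (hev.mono fun y hy i j => hg y hy.le i j) (Eventually.of_forall fun y i j => rfl)
    refine div_nonneg' hf hu hKs (hKy x) ?_ (htilt x hF0) (hstar x hF0)
    have h6 := hDEC x hF0.le
    have h7 : covNorm D.g (mom D.g D.K) x = covNorm (gM f) (mom (gM f) D.K) x := by
      simp only [covNorm, h1, h4]
    rwa [h7, h3] at h6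
  · intro k x hx
    obtain ⟨hr, he, hL, hth⟩ := bdr_data hT hB hf hg hlev k hx
    have h1 := bdry_ge u D.K hL (hua k x hx hth hL hr) hth
    rwa [he] at h1

end

end Vale.Agent.H745C
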