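import Vale.Agent.P366.H745.CH.Mink

/-! The region outside several bodies. -/

open MeasureTheory Metric Filter Topology Set
open scoped ContDiff ENNReal

noncomputable section
namespace Vale.Agent.P366.CH

open Vale.Agent.P366 (pd E flux)
open Vale.Agent.P366.H353.N
open Vale.Agent.P366.Kerr (NullCone Psi)
open Vale.Agent.P366.KSN (Y dts sg Ms bflux OO mem_OO isOpen_OO Y_inj)

variable {n : ℕ}

lemma bp_notMem (C : NullCone n) {x : E n} (hx : ‖x‖ = 1) : bp C x ∉ OO C := by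
  intro h
  obtain ⟨x', s', hx', hs', he⟩ := mem_OO.mp h
  obtain ⟨h1, h2⟩ := Y_inj C hx' hs'.le hx le_rfl he
  subst h1
  exact hs'.ne' h2

/-- the mean curvature vector field data -/
structure LevAll (n : ℕ) : Prop where
  lev : ∀ (C : NullCone n) {ρ : ℝ} (_ : ∀ x, x ≠ 0 → C.U x = ρ) {f : E n → ℝ}
    (_ : Stmt.Smooth f) (_ : ∀ x y : E n, ‖x‖ = 1 → ‖y‖ = 1 → f (bp C x) = f (bp C y)) {x : E n}
    (_ : ‖x‖ = 1), 0 < mc C x ∧
      H45G.Lev f (((n : ℝ) - 1) / mc C x) (fun i => x i) (∑ i, Stmt.pd i f (bp C x) * x i) (bp C x)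

namespace Bodies

variable {F : E n → ℝ} {ι : Type} {C : ι → NullCone n} (h : Bodies F C)
include h

lemma bp_mem {j k : ι} (hjk : j ≠ k) {x : E n} (hx : ‖x‖ = 1) : bp (C k) x ∈ OO (C j) := by
  rcases h.sep j k hjk (bp (C k) x) with h1 | h1
  · exact h1
  · exact absurd h1 (bp_notMem (C k) hx)

lemma nonneg {y : E n} (hy : ∀ k, y ∈ OO (C k)) : 0 ≤ F y := by
  rw [h.dom]
  intro k
  obtain ⟨x, s, hx, hs, he⟩ := mem_OO.mp (hy k)
  exact ⟨x, s, hx, hs.le, he⟩

lemma nonneg_bp {k : ι} {x : E n} (hx : ‖x‖ = 1) : 0 ≤ F (bp (C k) x) := (h.bdr k x hx).ge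

/-- the points of the region -/
lemma cases {y : E n} (hy : 0 ≤ F y) : (∀ k, y ∈ OO (C k)) ∨ ∃ k x, ‖x‖ = 1 ∧ bp (C k) x = y := by
  by_cases hc : ∀ k, y ∈ OO (C k)
  · exact Or.inl hc
  · right
    push Not at hc
    obtain ⟨k, hk⟩ := hc
    obtain ⟨x, s, hx, hs, he⟩ := (h.dom y).1 hy k
    rcases hs.eq_or_lt with h1 | h1
    · exact ⟨k, x, hx, by unfold bp; rw [h1, he]⟩
    · exact absurd (mem_OO.mpr ⟨x, s, hx, h1, he⟩) hk

lemma pos_out [Finite ι] (hF : Stmt.Smooth F) (hne : ∀ x, F x = 0 → ∃ i, Stmt.pd i F x ≠ 0)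
    {y : E n} (hy : ∀ k, y ∈ OO (C k)) : 0 < F y := by
  have h0 := h.nonneg hy
  rcases h0.eq_or_lt with h1 | h1
  · exfalso
    obtain ⟨i, hi⟩ := hne y h1.symm
    apply hi
    have hopen : ∀ᶠ z in 𝓝 y, ∀ k, z ∈ OO (C k) := by
      rw [eventually_all]
      intro k
      exact (isOpen_OO (C k)).mem_nhds (hy k)
    have hmin : IsLocalMin F y := by
      filter_upwards [hopen] with z hz
      rw [← h1]
      exact h.nonneg hz
    rw [Vale.Agent.C92.pd_fderiv ((hF.differentiable (by simp)) y), hmin.fderiv_eq_zero]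
    rfl
  · exact h1

lemma pos_iff [Finite ι] (hF : Stmt.Smooth F) (hne : ∀ x, F x = 0 → ∃ i, Stmt.pd i F x ≠ 0)
    {y : E n} : 0 < F y ↔ ∀ k, y ∈ OO (C k) := by
  refine ⟨fun hy => ?_, h.pos_out hF hne⟩
  rcases h.cases hy.le with h1 | ⟨k, x, hx, rfl⟩
  · exact h1
  · rw [h.bdr k x hx] at hy
    exact absurd hy (lt_irrefl _)

/-- the outer segment -/
lemma seg [Finite ι] {k : ι} {x : E n} (hx : ‖x‖ = 1) :
    ∀ᶠ s in 𝓝[>] (0 : ℝ), 0 ≤ F (bp (C k) x + s • x) := by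
  have e : ∀ s : ℝ, bp (C k) x + s • x = Y (C k).H x ((C k).U x + s) := by
    intro s
    ext i
    simp only [bp, Y, PiLp.add_apply, PiLp.smul_apply, smul_eq_mul]
    ring
  have hc : Continuous fun s : ℝ => bp (C k) x + s • x := by fun_prop
  have h1 : ∀ᶠ s in 𝓝 (0 : ℝ), ∀ j, j ≠ k → bp (C k) x + s • x ∈ OO (C j) := by
    rw [eventually_all]
    intro j
    by_cases hjk : j = k
    · simp [hjk]
    · have h2 : bp (C k) x + (0 : ℝ) • x ∈ OO (C j) := by
        rw [zero_smul, add_zero]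
        exact h.bp_mem hjk hx
      filter_upwards [hc.continuousAt.preimage_mem_nhds ((isOpen_OO (C j)).mem_nhds h2)] with s hs _
      exact hs
  filter_upwards [nhdsWithin_le_nhds h1, self_mem_nhdsWithin] with s hs hs0
  have hs0' : (0 : ℝ) < s := hs0
  refine h.nonneg fun j => ?_
  by_cases hjk : j = k
  · rw [hjk, e]
    exact mem_OO.mpr ⟨x, _, hx, by linarith, rfl⟩
  · exact hs j hjk

/-- `F` has positive normal derivative at the boundary. -/
theorem lev [Finite ι] (hL : LevAll n) (hF : Stmt.Smooth F)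
    (hne : ∀ x, F x = 0 → ∃ i, Stmt.pd i F x ≠ 0) {k : ι} {x : E n}
    (hx : ‖x‖ = 1) : ∃ b, 0 < b ∧
      H45G.Lev F (((n : ℝ) - 1) / mc (C k) x) (fun i => x i) b (bp (C k) x) := by
  obtain ⟨ρ, hρ⟩ := h.rad k
  obtain ⟨-, hLF⟩ := hL.lev (C k) hρ hF (fun a b ha hb => by
    rw [h.bdr k a ha, h.bdr k b hb]) hx
  set b := ∑ i, Stmt.pd i F (bp (C k) x) * x i with hb
  have hb0 : b ≠ 0 := by
    intro h0
    obtain ⟨i, hi⟩ := hne _ (h.bdr k x hx)
    apply hi
    rw [hLF.fst, h0, zero_mul]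
  refine ⟨b, lt_of_le_of_ne ?_ (Ne.symm hb0), hLF⟩
  have hFd : DifferentiableAt ℝ F (bp (C k) x) := (hF.differentiable (by simp)) _
  have hc : HasDerivAt (fun t : ℝ => bp (C k) x + t • x) x 0 := by
    simpa using ((hasDerivAt_id (0 : ℝ)).smul_const x).const_add (bp (C k) x)
  have h1 : HasDerivAt (fun t : ℝ => F (bp (C k) x + t • x)) (fderiv ℝ F (bp (C k) x) x) 0 := by
    have h2 : HasFDerivAt F (fderiv ℝ F (bp (C k) x)) (bp (C k) x + (0 : ℝ) • x) := by
      simpa using hFd.hasFDerivAt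
    exact h2.comp_hasDerivAt 0 hc
  have hNb : fderiv ℝ F (bp (C k) x) x = b := by
    have hNsum : x = ∑ i, x i • (EuclideanSpace.single i (1 : ℝ) : E n) := by
      ext j
      simp [WithLp.ofLp_sum, Pi.single_apply]
    conv_lhs => rw [show (fderiv ℝ F (bp (C k) x)) x = (fderiv ℝ F (bp (C k) x))
      (∑ i, x i • (EuclideanSpace.single i (1 : ℝ) : E n)) from by rw [← hNsum]]
    rw [map_sum, hb]
    refine Finset.sum_congr rfl fun i _ => ?_
    rw [map_smul, smul_eq_mul, Vale.Agent.C92.pd_fderiv hFd]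
    ring
  rw [hNb] at h1
  have h2 := h1.tendsto_slope_zero_right
  refine ge_of_tendsto h2 ?_
  filter_upwards [h.seg (k := k) hx, self_mem_nhdsWithin] with s hs hs0
  have hs0' : (0 : ℝ) < s := hs0
  simp only [zero_add, zero_smul, add_zero, smul_eq_mul]
  rw [h.bdr k x hx, sub_zero]
  exact mul_nonneg (inv_nonneg.2 hs0'.le) hs

end Bodies

end Vale.Agent.P366.CH
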