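import Vale.Agent.P366.H707.CH.Area
import Vale.Agent.P366.H222.K.Cut

/-! The area of the boundary of the region outside several convex bodies, in an exterior of which
it is an enclosing cut. -/

open MeasureTheory Metric Filter Topology Set
open scoped ContDiff ENNReal

noncomputable section
namespace Vale.Agent.P366.CH.C745

open Vale.Agent.P366 (E pd)
open Vale.Agent.P366.CH
open Vale.Agent.P366.H353.N (SI)
open Vale.Agent.P366.Kerr (NullCone)
open Vale.Agent.P366.KSN (Y dts OO)
open Vale.Agent.H45G (gM W2 W2_pos W2_ne smooth_W2 det_gM test_bound)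

variable {n : ℕ} {ι : Type} {C : ι → NullCone n} {D D' : Stmt.Exterior n} {f : E n → ℝ}

/-- The square root of a function which is positive on a closed set, near the points of the set in
a ball, is smooth up to a change elsewhere. -/
lemma exists_root {q : E n → ℝ} (hq : ContDiff ℝ ∞ q) {S : Set (E n)} (hS : IsClosed S)
    (hp : ∀ x ∈ S, 0 < q x) (R : ℝ) :
    ∃ w : E n → ℝ, ContDiff ℝ ∞ w ∧ ∀ x ∈ S, ‖x‖ ≤ R → ∀ᶠ y in 𝓝 x, w y = √(q y) := by
  have hc : IsCompact (S ∩ closedBall (0 : E n) R) := (isCompact_closedBall 0 R).inter_left hS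
  obtain ⟨δ, hδ, hδq⟩ : ∃ δ : ℝ, 0 < δ ∧ ∀ x ∈ S ∩ closedBall (0 : E n) R, δ ≤ q x := by
    by_cases hne : (S ∩ closedBall (0 : E n) R).Nonempty
    · obtain ⟨x0, hx0, hmin⟩ := hc.exists_isMinOn hne hq.continuous.continuousOn
      exact ⟨q x0, hp x0 hx0.1, fun x hx => hmin hx⟩
    · rw [Set.not_nonempty_iff_eq_empty] at hne
      exact ⟨1, one_pos, fun x hx => by rw [hne] at hx; exact hx.elim⟩
  set σ : E n → ℝ := fun x => Real.smoothTransition (4 * q x / δ - 1) with hσ
  have hσs : ContDiff ℝ ∞ σ :=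
    Real.smoothTransition.contDiff.comp (((contDiff_const.mul hq).div_const δ).sub contDiff_const)
  set χ : E n → ℝ := fun x => σ x * q x + (1 - σ x) with hχ
  have hχs : ContDiff ℝ ∞ χ := (hσs.mul hq).add (contDiff_const.sub hσs)
  have hχp : ∀ x, 0 < χ x := by
    intro x
    have h0 : 0 ≤ σ x := Real.smoothTransition.nonneg _
    have h1 : σ x ≤ 1 := Real.smoothTransition.le_one _
    by_cases h : q x ≤ δ / 4
    · have h2 : σ x = 0 := by
        refine Real.smoothTransition.zero_of_nonpos ?_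
        rw [sub_nonpos, div_le_one hδ]
        linarith
      simp only [hχ, h2]
      norm_num
    · push Not at h
      have h3 : 0 < q x := by linarith
      simp only [hχ]
      rcases h0.eq_or_lt with h4 | h4
      · rw [← h4]; norm_num
      · have := mul_pos h4 h3
        linarith
  refine ⟨fun x => √(χ x), hχs.sqrt fun x => (hχp x).ne', fun x hx hxR => ?_⟩
  have h1 : δ ≤ q x := hδq x ⟨hx, by simpa using hxR⟩
  have h2 : δ / 2 < q x := by linarith
  filter_upwards [(isOpen_lt continuous_const hq.continuous).mem_nhds h2] with y hy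
  have hy' : δ / 2 < q y := hy
  have h3 : σ y = 1 := by
    refine Real.smoothTransition.one_of_one_le ?_
    rw [le_sub_iff_add_le, le_div_iff₀ hδ]
    linarith
  simp only [hχ, h3]
  norm_num

/-- The area of the boundary. -/
theorem area_bodies_cut [Fact (3 ≤ n)] [Fintype ι] (hB : Bodies D'.F C)
    (hO : Vale.Agent.P366.Kerr.IsCut D' D)
    (hf : Stmt.Smooth f) (hg : ∀ x, 0 ≤ D'.F x → ∀ i j, D'.g x i j = gM f x i j)
    (hlev : ∀ k x y, ‖x‖ = 1 → ‖y‖ = 1 → f (bp (C k) x) = f (bp (C k) y)) :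
    D.area D'.F ≤ ENNReal.ofReal (∑ k, SI (fun x => dts (C k).H ((C k).U x) x)) := by
  unfold Stmt.Exterior.area
  refine sSup_le ?_
  rintro a ⟨X, ⟨hX1, ⟨R, hX2⟩, hX3⟩, rfl⟩
  apply ENNReal.ofReal_le_ofReal
  obtain ⟨w, hw, hwS⟩ := exists_root (q := fun y => (Stmt.mat D.g y).det)
    (Vale.Agent.P366.det_smooth fun i j => (D.smooth i j).1)
    (S := {y | 0 ≤ D'.F y}) (isClosed_le continuous_const D'.dom.1.continuous)
    (fun x hx => (D.pos x (hO.sub x hx)).det_pos) R
  set Z : Fin n → E n → ℝ := fun i x => w x * X i x with hZd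
  have hZ : ∀ i, Stmt.Smooth (Z i) := fun i => ContDiff.mul hw (hX1 i)
  have hC : ∀ i x, R < ‖x‖ → Z i x = 0 := fun i x hx => by
    simp only [hZd]
    rw [hX2 x hx i, mul_zero]
  rw [Vale.Agent.P366.vol_eq, setIntegral_congr_set (ae_dom hB)]
  have h1 : ∫ x in {y : E n | ∀ k, y ∈ OO (C k)},
      ∑ i, Stmt.pd i (fun y => √(Stmt.mat D.g y).det * X i y) x =
      ∫ x in {y : E n | ∀ k, y ∈ OO (C k)}, ∑ i, pd i (Z i) x := by
    refine setIntegral_congr_fun (OO_all_open C).measurableSet fun x hx => ?_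
    have hF0 := hB.pos_out D'.dom.1 D'.dom.2.1 hx
    refine Finset.sum_congr rfl fun i _ => ?_
    have h2 : Stmt.pd i (Z i) x = pd i (Z i) x :=
      Vale.Agent.P366.Bridge.pd_eq ((hZ i).differentiable (by simp) x) i
    show Stmt.pd i (fun y => √(Stmt.mat D.g y).det * X i y) x = pd i (Z i) x
    rw [← h2]
    refine Vale.Agent.P366.T1.pd_congr' ?_ i
    by_cases hxR : ‖x‖ ≤ R
    · filter_upwards [hwS x hF0.le hxR] with y hy
      show √(Stmt.mat D.g y).det * X i y = w y * X i y
      rw [hy]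
    · push Not at hxR
      filter_upwards [(isOpen_lt continuous_const continuous_norm).mem_nhds hxR] with y hy
      show √(Stmt.mat D.g y).det * X i y = w y * X i y
      rw [hX2 y hy i, mul_zero, mul_zero]
  obtain ⟨R0, hR0⟩ := cov_out hB D'.dom
  rw [h1, Vale.Agent.P366.H375.CH.stokes_bodies_eq hB.sep hR0
    (fun i => (hZ i).of_le (by exact_mod_cast le_top)) hC, ← Finset.sum_neg_distrib]
  refine Finset.sum_le_sum fun k _ => ?_
  obtain ⟨ρ, hρ⟩ := hB.rad k
  refine neg_bflux_le (C k) hρ (fun i => (hZ i).continuous) fun x hx => ?_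
  have hL := (lev_body (C k) hρ hf (hlev k) hx).2
  have h0 : D'.F (bp (C k) x) = 0 := hB.bdr k x hx
  by_cases hxR : ‖bp (C k) x‖ ≤ R
  · have e1 : w (bp (C k) x) = √(W2 f (bp (C k) x)) := by
      rw [(hwS _ h0.ge hxR).self_of_nhds]
      have hm2 : Stmt.mat D.g (bp (C k) x) = Stmt.mat (gM f) (bp (C k) x) := by
        ext a b
        show D.g (bp (C k) x) a b = gM f (bp (C k) x) a b
        rw [← hO.met _ h0, hg _ h0.ge]
      rw [hm2, det_gM]
    simp only [hZd, e1]
    refine test_bound hL (fun i => X i (bp (C k) x)) ?_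
    refine le_trans (le_of_eq ?_) (hX3 (bp (C k) x) (hO.sub _ h0.ge))
    refine Finset.sum_congr rfl fun i _ => Finset.sum_congr rfl fun j _ => ?_
    rw [← hg _ h0.ge, hO.met _ h0]
  · push Not at hxR
    simp only [hC _ _ hxR, zero_mul, Finset.sum_const_zero, neg_zero]
    exact zero_le_one

end Vale.Agent.P366.CH.C745
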