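import Vale.Agent.P366.H745.CH.Stmt

/-! Strictly convex bodies with smooth support functions: the body and the area of its
boundary. -/

open MeasureTheory Metric
open scoped ContDiff

noncomputable section
namespace Vale.Agent.P366.Convex

open Vale.Agent.P366.Stmt

variable {n : ℕ}

/-- The Euclidean area of the boundary of the convex body with the support function `h`: the
integral over the unit sphere of the determinant of the Hessian of `h` on the space orthogonal
to `x`, which is the product of the principal radii of curvature. -/
def surfArea (h : E n → ℝ) : ℝ :=
  sphInt 1 fun x => (Matrix.of fun i j => pd i (pd j h) x + x i * x j).det

end Vale.Agent.P366.Convex
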