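import Vale.Agent.P366.H45.Rest

/-! The pointwise condition for graph metrics and `K = u A + M`. -/

open MeasureTheory Metric
open scoped ContDiff

noncomputable section
namespace Vale.Agent.P366.GraphClass

open Vale.Agent.P366.Stmt

variable {n : ℕ}

/-- The one-form `m = M(∂f) - (tr M) ∂f` (Euclidean contractions), where `M = K - u A`. -/
def mform (K : Field n) (f u : E n → ℝ) (i : Fin n) (x : E n) : ℝ :=
  (∑ j, rest K f u x i j * pd j f x) - trE (rest K f u) x * pd i f x

/-- The inequality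
`(tr_g M)² - |M|² + 2 ⟨m, ∂u⟩ / W + W (J(Y) + ⟨π, ∇Y⟩) ≤ 2 (μ - u J(∂f) / W)` at `x`,
where `M = K - u A` and `m = M(∂f) - (tr M) ∂f`. -/
def StarAt (g K : Field n) (f u : E n → ℝ) (Y : Fin n → E n → ℝ) (x : E n) : Prop :=
  tr g (rest K f u) x ^ 2 - normSq g (rest K f u) x +
      2 * (∑ i, pd i u x * mform K f u i x) / slope f x +
      slope f x * (∑ j, Y j x * mom g K j x + piDer g K Y x) ≤
    2 * (mu g K x - u x / slope f x * ∑ j, pd j f x * mom g K j x)

end Vale.Agent.P366.GraphClass
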