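import Vale.Agent.P366.H745.CH.EnergyY
import Vale.Agent.P366.H745.CH.Body
import Vale.Agent.P366.H745.CH.Clause
import Vale.Agent.P366.H745.CH.AreaCut
import Vale.Agent.P366.H375.CH.Out
import Vale.Agent.P366.H222.K.Cut

/-! The final theorem for several strictly convex bodies, with cuts, `K = u A + M` with any `M`,
and a vector field `Y`. -/

open MeasureTheory Metric Filter Topology Set
open scoped ContDiff ENNReal

noncomputable section
namespace Vale.Agent.H745C

open Vale.Agent.P366.CH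
open Vale.Agent.P366.Convex
open Vale.Agent.P366.H353.N (SI om SI_congr ne_zero_of_one)
open Vale.Agent.P366.Kerr (NullCone IsCut)
open Vale.Agent.P366.KSN (dts OO mem_OO)
open Vale.Agent.P366.Stmt
open Vale.Agent.P366.GraphClass
open Vale.Agent.H45G

variable {n : ℕ} {ι : Type}

lemma surfArea_eq4 (h : E n → ℝ) : surfArea h =
    SI fun x => (Matrix.of fun i j => pd i (pd j h) x + x i * x j).det := by
  unfold surfArea
  rw [Vale.Agent.P366.KSN.sphInt_SI, one_pow, one_mul]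
  simp only [one_smul]

variable [Fintype ι]

/-- The momentum. -/
lemma momentum_alg4 {b m : ℝ} {y P : Fin n → ℝ} (hb0 : 0 < b) (hE : b ≤ m - (∑ j, y j * P j) / 2)
    (hy : ∀ j, m * y j = 2 * P j) (hy4 : ∑ j, y j ^ 2 < 4) :
    √(∑ j, P j ^ 2) < m ∧ b ≤ √(m ^ 2 - ∑ j, P j ^ 2) := by
  set t := (∑ j, y j ^ 2) / 4 with ht
  have ht0 : 0 ≤ t := by
    rw [ht]; exact div_nonneg (Finset.sum_nonneg fun j _ => sq_nonneg _) (by norm_num)
  have ht1 : t < 1 := by rw [ht]; linarith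
  have hPj : ∀ j, P j = m * y j / 2 := fun j => by linarith [hy j]
  have hPP : ∑ j, P j ^ 2 = m ^ 2 * t := by
    rw [ht, Finset.sum_div, Finset.mul_sum]
    exact Finset.sum_congr rfl fun j _ => by rw [hPj]; ring
  have hyP : (∑ j, y j * P j) / 2 = m * t := by
    rw [ht, Finset.sum_div, Finset.sum_div, Finset.mul_sum]
    exact Finset.sum_congr rfl fun j _ => by rw [hPj]; ring
  rw [hyP] at hE
  have hm0 : 0 < m := by
    have h1 : 0 < m * (1 - t) := by linarith
    exact (pos_iff_pos_of_mul_pos h1).2 (by linarith)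
  have hE' : b ≤ √(m ^ 2 - ∑ j, P j ^ 2) := by
    refine hE.trans ?_
    refine Real.le_sqrt_of_sq_le ?_
    rw [hPP]
    have h1 : (m - m * t) ^ 2 = m ^ 2 * ((1 - t) * (1 - t)) := by ring
    have h2 : m ^ 2 - m ^ 2 * t = m ^ 2 * ((1 - t) * 1) := by ring
    rw [h1, h2]
    refine mul_le_mul_of_nonneg_left ?_ (sq_nonneg m)
    exact mul_le_mul_of_nonneg_left (by linarith) (by linarith)
  refine ⟨?_, hE'⟩
  rw [hPP, Real.sqrt_mul (sq_nonneg m), Real.sqrt_sq hm0.le]
  have : √t < 1 := by rw [Real.sqrt_lt' one_pos]; linarith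
  nlinarith

/-- The dominant energy condition. -/
lemma J_nonneg4 {D : Exterior n} {f u : E n → ℝ} (hDEC : D.DEC)
    (hg : ∀ x, 0 ≤ D.F x → ∀ i j, D.g x i j = graphMetric f x i j) {x : E n} (hx : 0 < D.F x)
    (hu : u x ^ 2 * ∑ i, pd i f x ^ 2 ≤ 1) :
    0 ≤ mu D.g D.K x - u x / slope f x * ∑ j, pd j f x * mom D.g D.K j x := by
  have hg' : ∀ x, 0 ≤ D.F x → ∀ i j, D.g x i j = gM f x i j := hg
  have hev : ∀ᶠ y in 𝓝 x, 0 < D.F y :=
    (isOpen_lt continuous_const D.dom.1.continuous).mem_nhds hx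
  obtain ⟨h1, h2, h3, h4, h5⟩ := germ (K := D.K) (K' := D.K)
    (hev.mono fun y hy i j => hg' y hy.le i j) (Eventually.of_forall fun y i j => rfl)
  have h6 := hDEC x hx.le
  have h7 : covNorm D.g (mom D.g D.K) x = covNorm (gM f) (mom (gM f) D.K) x := by
    simp only [covNorm, h1, h4]
  rw [h7, h3] at h6
  have hW : W2 f x - 1 = ∑ i, pd i f x ^ 2 := by unfold W2; ring
  rw [← hW] at hu
  have h8 := J_bound (u := u) h6 hu
  rw [h3, slope_eq]
  simp only [h4]
  have h9 : u x / √(W2 f x) = u x * (√(W2 f x))⁻¹ := rfl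
  rw [h9]
  linarith

/-- The final theorem. -/
theorem final4 (hn : 3 ≤ n) (D D' : Exterior n) (hO : IsCut D' D) (hAF : D.IsAF) (hDEC : D'.DEC)
    (hT : D'.Trapped) (m : ℝ) (hm : D.IsEnergy m) (h : ι → E n → ℝ)
    (hs : ∀ k, IsSupport (h k))
    (hsep : ∀ j k, j ≠ k → ∀ y : E n, ¬ ((∀ x, len x = 1 → ∑ i, x i * y i ≤ h j x) ∧
      ∀ x, len x = 1 → ∑ i, x i * y i ≤ h k x))
    (hS : ∀ y, D'.F y < 0 ↔ ∃ k, ∀ x, len x = 1 → ∑ i, x i * y i < h k x)
    (f : E n → ℝ) (hf : Smooth f)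
    (hlev : ∀ k x y, len x = 1 → len y = 1 → f (ray (h k) x 0) = f (ray (h k) y 0))
    (hg : ∀ x, 0 ≤ D'.F x → ∀ i j, D'.g x i j = graphMetric f x i j) (B : ℝ)
    (hBd : B = 1 / 2 * ∑ k, (surfArea (h k) / omega n) ^ (((n : ℝ) - 2) / (n - 1))) :
    D.Amin ≤ D.area D'.F ∧ D.area D'.F ≠ ⊤ ∧ 0 < B ∧
    1 / 2 * (D.Amin.toReal / omega n) ^ (((n : ℝ) - 2) / (n - 1)) ≤
      1 / 2 * ((D.area D'.F).toReal / omega n) ^ (((n : ℝ) - 2) / (n - 1)) ∧
    1 / 2 * ((D.area D'.F).toReal / omega n) ^ (((n : ℝ) - 2) / (n - 1)) ≤ B ∧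
    ((∃ j k : ι, j ≠ k) →
      1 / 2 * ((D.area D'.F).toReal / omega n) ^ (((n : ℝ) - 2) / (n - 1)) < B) ∧
    (∀ (u : E n → ℝ) (x : E n), 0 < D'.F x → u x ^ 2 * ∑ i, pd i f x ^ 2 ≤ 1 →
      0 ≤ mu D'.g D'.K x - u x / slope f x * ∑ j, pd j f x * mom D'.g D'.K j x) ∧
    (∀ (u : E n → ℝ) (Y : Fin n → E n → ℝ) (y : Fin n → ℝ), Smooth u → (∀ i, Smooth (Y i)) →
      (∀ k x, len x = 1 → ∃ l : ℝ,
        (1 + u (ray (h k) x 0) * ∑ i, pd i f (ray (h k) x 0) * x i) ^ 2 ≤ l ∧
        ∀ i, Y i (ray (h k) x 0) = -(l * (x i / slope f (ray (h k) x 0) ^ 2))) →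
      (∃ a : ℝ, (n : ℝ) / 2 - 1 < a ∧
        ∀ i, (BigO a fun x => Y i x - y i) ∧ BigO a fun x => u x * pd i f x) →
      (∃ b : ℝ, (n : ℝ) - 1 < b ∧ ∀ i, BigO b fun x => u x * mform D'.K f u i x) →
      (∀ x, 0 < D'.F x → StarAt D'.g D'.K f u Y x) →
      ((∀ i x, Y i x = 0) → B ≤ m) ∧
      ∀ P : Fin n → ℝ, D.IsMomentum P → B ≤ m - (∑ j, y j * P j) / 2 ∧
        ((∀ j, m * y j = 2 * P j) → ∑ j, y j ^ 2 < 4 →
          √(∑ j, P j ^ 2) < m ∧ B ≤ √(m ^ 2 - ∑ j, P j ^ 2))) := by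
  have : Fact (3 ≤ n) := ⟨hn⟩
  have hAF' := Vale.Agent.P366.KSR.cut_AF hO hAF
  have hm' := Vale.Agent.P366.KSR.cut_energy hO hm
  have hB : Bodies D'.F fun k => supC (hs k) :=
    bodies_of hs D'.dom.1.continuous (fun j k hjk y => by
      by_contra hcon
      push Not at hcon
      exact hsep j k hjk y ⟨fun x hx => (hcon x hx).1, fun x hx => (hcon x hx).2⟩) hS
  obtain ⟨C, hC⟩ : ∃ C : ι → NullCone n, C = fun k => supC (hs k) := ⟨_, rfl⟩
  rw [← hC] at hB
  have hbp : ∀ k x, ‖x‖ = 1 → bp (C k) x = ray (h k) x 0 := fun k x hx => by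
    rw [hC]; exact bp_sup (hs k) hx
  have har : ∀ k, SI (fun x => dts (C k).H ((C k).U x) x) = surfArea (h k) := fun k => by
    rw [surfArea_eq4]
    exact SI_congr fun x hx => by rw [hC]; exact dts_sup (hs k) hx
  have hlev' : ∀ k x y, ‖x‖ = 1 → ‖y‖ = 1 → f (bp (C k) x) = f (bp (C k) y) :=
    fun k x y hx hy => by rw [hbp k x hx, hbp k y hy]; exact hlev k x y hx hy
  have hb : B = bArea C := by
    rw [hBd]
    unfold bArea
    rw [Vale.Agent.P366.KSN.omega_om, Finset.mul_sum]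
    exact Finset.sum_congr rfl fun k _ => by rw [har]
  rw [hb]
  obtain ⟨p1, p2, p3, p4, p5, p6⟩ :=
    pen_gen (nonempty_bodies hB) (Vale.Agent.P366.KSR.cut_Amin hO)
      (Vale.Agent.P366.CH.C745.area_bodies_cut hB hO hf hg hlev')
  refine ⟨p1, p2, p3, p4, p5, p6, ?_, ?_⟩
  · intro u x hx hu
    exact J_nonneg4 hDEC hg hx hu
  · rintro u Y y hu hY hYS ⟨a, ha, hYa⟩ hdecM hin
    refine ⟨fun hY0 => ?_, fun P hP => ?_⟩
    · refine energyM hAF' hT hm' hB hf hu hg hlev' (fun k x hx => ?_)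
        ⟨a, ha, fun i => (hYa i).2⟩ hdecM fun x hx => ?_
      · rw [hbp k x hx]
        obtain ⟨l, hl, hYl⟩ := hYS k x hx
        have hl0 : l = 0 := by
          by_contra hl0
          have hsl : 0 < slope f (ray (h k) x 0) ^ 2 := by
            rw [slope_eq]
            exact pow_pos (Real.sqrt_pos.2 (W2_pos f _)) 2
          have hx0 : ∀ i, x i = 0 := by
            intro i
            have h1 := hYl i
            rw [hY0] at h1
            have h2 : l * (x i / slope f (ray (h k) x 0) ^ 2) = 0 := by linarith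
            rcases mul_eq_zero.1 h2 with h3 | h3
            · exact absurd h3 hl0
            · exact (div_eq_zero_iff.1 h3).resolve_right hsl.ne'
          have : x = 0 := by ext i; exact hx0 i
          exact ne_zero_of_one hx this
        rw [hl0] at hl
        have h4 := pow_eq_zero_iff two_ne_zero |>.1 (le_antisymm hl (sq_nonneg _))
        linarith
      · have h1 := hin x hx
        unfold StarAt at h1
        have h2 : ∑ j, Y j x * mom D'.g D'.K j x = 0 :=
          Finset.sum_eq_zero fun j _ => by rw [hY0, zero_mul]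
        have h3 : piDer D'.g D'.K Y x = 0 := by
          unfold piDer covDer
          refine Finset.sum_eq_zero fun i _ => Finset.sum_eq_zero fun k _ => ?_
          have h4 : ∀ j, pd k (Y j) x = 0 := by
            intro j
            have h5 : Y j = fun _ => 0 := by funext z; exact hY0 j z
            rw [h5]
            have h7 : DifferentiableAt ℝ (fun _ : E n => (0 : ℝ)) x := differentiableAt_const _
            unfold pd
            rw [h7.lineDeriv_eq_fderiv]
            simp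
          have h6 : ∑ j, momT D'.g D'.K x i j *
              (pd k (Y j) x + ∑ l, chr D'.g j k l x * Y l x) = 0 :=
            Finset.sum_eq_zero fun j _ => by
              rw [h4 j]
              simp only [hY0, mul_zero, Finset.sum_const_zero, add_zero]
          rw [h6, mul_zero]
        rw [h2, h3, add_zero, mul_zero, add_zero] at h1
        exact h1
    · have hE := energyMY (Y := Y) hAF' hT hm' (Vale.Agent.P366.KSR.cut_momentum hO hP) hB hf hu
        hg hlev' hY ⟨a, ha, fun i => (hYa i).1⟩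
        (fun k x hx => by rw [hbp k x hx]; exact hYS k x hx) ⟨a, ha, fun i => (hYa i).2⟩ hdecM hin
      exact ⟨hE, fun hy hy4 => momentum_alg4 p3 hE hy hy4⟩

end Vale.Agent.H745C
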