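import Vale.Agent.P366.H707.L.Stokes
import Vale.Agent.P366.H45.G22

/-! Several strictly convex horizons: the interface. -/

open MeasureTheory Metric Filter Topology Set
open scoped ContDiff ENNReal

noncomputable section
namespace Vale.Agent.P366.CH

open Vale.Agent.P366 (pd E flux)
open Vale.Agent.P366.H353.N
open Vale.Agent.P366.Kerr (NullCone Psi)
open Vale.Agent.P366.KSN (Y dts sg Ms bflux OO mem_OO)

variable {n : ℕ}

/-- The point of the surface with the unit normal `x`. -/
def bp (C : NullCone n) (x : E n) : E n := Y C.H x (C.U x)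

/-- The mean curvature of the surface at the point with the unit normal `x`. -/
def mc (C : NullCone n) (x : E n) : ℝ := sg C.H (C.U x) x / dts C.H (C.U x) x

/-- `{0 ≤ F}` is the region outside finitely many strictly convex bodies (the function `U` of each
null cone is a constant: its surface is parallel to a convex hypersurface, and convex). -/
structure Bodies (F : E n → ℝ) {ι : Type} (C : ι → NullCone n) : Prop where
  rad : ∀ k, ∃ ρ, ∀ x, x ≠ 0 → (C k).U x = ρ
  dom : ∀ y, 0 ≤ F y ↔ ∀ k, ∃ x s, ‖x‖ = 1 ∧ (C k).U x ≤ s ∧ Y (C k).H x s = y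
  bdr : ∀ k x, ‖x‖ = 1 → F (bp (C k) x) = 0
  sep : ∀ j k, j ≠ k → ∀ y, y ∈ OO (C j) ∨ y ∈ OO (C k)

end Vale.Agent.P366.CH
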