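import Vale.Agent.P366.H45.G16

/-! The identity for a graph metric and `K = u A + M`, `M` arbitrary. -/

open MeasureTheory Metric Filter Topology Set
open scoped ContDiff ENNReal

noncomputable section
namespace Vale.Agent.H45G.M745
open Vale.Agent.P366.Stmt
open Vale.Agent.P366.T2 (HP)

variable {n : ℕ}

/-- `M(∂f) - (tr M) ∂f`. -/
def ym (f : E n → ℝ) (M : Field n) (i : Fin n) (x : E n) : ℝ :=
  (∑ j, M x i j * pd j f x) - te M x * pd i f x

lemma tr_te (f : E n → ℝ) (M : Field n) (x : E n) :
    tr (gM f) M x = te M x - (∑ i, ∑ j, pd i f x * pd j f x * M x i j) / W2 f x := by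
  unfold tr
  simp only [up_gM]
  rw [contr]
  rfl

lemma Y_momT (f : E n → ℝ) (M : Field n) (i : Fin n) (x : E n) :
    Yf f (momT (gM f) M) i x = ym f M i x := by
  have hW := W2_ne f x
  have hp : ∀ i, pf f (momT (gM f) M) i x =
      (∑ j, M x i j * pd j f x) - tr (gM f) M x * (W2 f x * pd i f x) := by
    intro i
    unfold pf momT
    have : ∀ j, (M x i j - tr (gM f) M x * gM f x i j) * pd j f x =
        M x i j * pd j f x - tr (gM f) M x * (pd j f x * gM f x i j) := by
      intro j; ring
    simp only [this, Finset.sum_sub_distrib, ← Finset.mul_sum]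
    rw [g_contr]
  have hq : qp f (momT (gM f) M) x = (∑ i, ∑ j, pd i f x * pd j f x * M x i j) -
      tr (gM f) M x * W2 f x * (W2 f x - 1) := by
    unfold qp
    rw [← sum_sq, Finset.mul_sum, ← Finset.sum_sub_distrib]
    refine Finset.sum_congr rfl fun i _ => ?_
    rw [hp, mul_sub, Finset.mul_sum]
    congr 1
    · exact Finset.sum_congr rfl fun j _ => by ring
    · ring
  unfold Yf ym
  rw [hp, hq, tr_te]
  field_simp
  ring

lemma IP_momT {f : E n → ℝ} (hf : Smooth f) (M : Field n) (x : E n) :
    IP f (momT (gM f) M) x = IP f M x - tr (gM f) M x * H45G.hf f x := by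
  have h1 : IP f (gM f) x = H45G.hf f x := by
    have h2 := tr_gM f (fun _ => 1) x
    rw [one_mul] at h2
    rw [← h2]
    unfold IP tr
    refine Finset.sum_congr rfl fun i _ => Finset.sum_congr rfl fun k _ => ?_
    congr 1
    have h3 : ∀ l, ∑ j, up (gM f) j l x * gM f x i j = if i = l then 1 else 0 := by
      intro l
      have h4 := (W2_ne f x)
      have h5 : ∀ j, up (gM f) j l x * gM f x i j =
          (if j = l then gM f x i j else 0) - pd l f x / W2 f x * (pd j f x * gM f x i j) := by
        intro j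
        rw [up_gM]
        split_ifs <;> ring
      simp only [h5, Finset.sum_sub_distrib, Finset.sum_ite_eq', Finset.mem_univ, if_true,
        ← Finset.mul_sum]
      rw [g_contr]
      unfold gM
      split_ifs <;> field_simp <;> ring
    rw [Finset.sum_comm]
    have h6 : ∀ l, ∑ j, up (gM f) j l x * (gM f x i j * pd k (pd l f) x) =
        if i = l then pd k (pd l f) x else 0 := by
      intro l
      have : ∀ j, up (gM f) j l x * (gM f x i j * pd k (pd l f) x) =
          (up (gM f) j l x * gM f x i j) * pd k (pd l f) x := by intro j; ring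
      simp only [this]
      rw [← Finset.sum_mul, h3]
      split_ifs <;> ring
    simp only [h6, Finset.sum_ite_eq, Finset.mem_univ, if_true]
    unfold kS
    rw [one_mul, sym2 hf]
  rw [← h1]
  unfold IP momT
  simp only [Finset.mul_sum, ← Finset.sum_sub_distrib]
  refine Finset.sum_congr rfl fun i _ => Finset.sum_congr rfl fun k _ =>
    Finset.sum_congr rfl fun j _ => Finset.sum_congr rfl fun l _ => ?_
  ring

/-- The divergence of the third field. -/
theorem div_Zm {f u : E n → ℝ} (hf : Smooth f) (hu : Smooth u) {K : Field n}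
    (hKs : ∀ i j, Smooth fun x => K x i j) (hKy : ∀ x i j, K x i j = K x j i) {M : Field n}
    (hM : M = fun y i j => K y i j - kS f (sg f u) y i j) (x : E n) :
    ∑ i, pd i (fun y => (Vf f i y + Xf f u (momT (gM f) K) i y) +
      Xf f u (momT (gM f) M) i y) x =
    2 * (mu (gM f) K x - u x * (√(W2 f x))⁻¹ * ∑ j, pd j f x * mom (gM f) K j x) -
      tr (gM f) M x ^ 2 + normSq (gM f) M x -
      2 * ((∑ i, pd i u x * ym f M i x) * (√(W2 f x))⁻¹) := by
  set K0 : Field n := kS f (sg f u) with hK0
  have hW := W2_pos f x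
  have hww : √(W2 f x) ^ 2 = W2 f x := Real.sq_sqrt hW.le
  have hw : 0 < √(W2 f x) := Real.sqrt_pos.2 hW
  have hK0s : ∀ i j, Smooth fun x => K0 x i j := fun i j =>
    ContDiff.mul (smooth_sg hf hu) (smooth_pd (smooth_pd hf j) i)
  have hMs : ∀ i j, Smooth fun x => M x i j := fun i j => by
    rw [hM]; exact ContDiff.sub (hKs i j) (hK0s i j)
  have hK0y : ∀ x i j, K0 x i j = K0 x j i := fun x i j => by
    rw [hK0]; unfold kS; rw [sym2 hf i j]
  have hMy : ∀ x i j, M x i j = M x j i := fun x i j => by
    rw [hM]; simp only; rw [hKy x i j, hK0y x i j]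
  have hadd : ∀ y i j, K y i j = K0 y i j + M y i j := fun y i j => by rw [hM]; ring
  have htr : ∀ y, tr (gM f) K y = tr (gM f) K0 y + tr (gM f) M y := by
    intro y
    unfold tr
    simp only [← Finset.sum_add_distrib]
    exact Finset.sum_congr rfl fun i _ => Finset.sum_congr rfl fun j _ => by
      rw [hadd]; ring
  have hmomT : ∀ y i j, momT (gM f) K y i j = momT (gM f) K0 y i j + momT (gM f) M y i j := by
    intro y i j
    unfold momT
    rw [htr, hadd]; ring
  have hPK := smooth_momT hf hKs
  have hP0 := smooth_momT hf hK0s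
  have hPM := smooth_momT hf hMs
  -- the divergences
  have HX : ∀ (P : Field n) (_ : ∀ i j, Smooth fun x => P x i j) (i : Fin n),
      HP i (Xf f u P i) _ x := fun P hP i =>
    (((hp hu i x).mul (HP_w hf i x)).neg).mul ((HP_pf hf hP i i x).sub
      (((hp (smooth_pd hf i) i x).mul (HP_qp hf hP i x)).mul
        (HP_inv (HP_W2 hf i x) (W2_ne f x))))
  have hd : ∀ i, pd i (fun y => (Vf f i y + Xf f u (momT (gM f) K) i y) +
      Xf f u (momT (gM f) M) i y) x =
      (pd i (Vf f i) x + pd i (Xf f u (momT (gM f) K) i) x) +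
        pd i (Xf f u (momT (gM f) M) i) x := by
    intro i
    have h1 := HX _ hPK i
    have h2 := HX _ hPM i
    have h3 := (((hp (smooth_Vf hf i) i x).add h1).add h2).pd
    rw [h3, h1.pd, h2.pd]
  simp only [hd]
  rw [Finset.sum_add_distrib, Finset.sum_add_distrib, div_Vf hf,
    div_Xf hf hu hPK (symm_momT (hKy x)), div_Xf hf hu hPM (symm_momT (hMy x))]
  -- linearity
  have hYl : ∀ i, Yf f (momT (gM f) K) i x = Yf f (momT (gM f) K0) i x + ym f M i x := by
    intro i
    rw [← Y_momT f M]
    have h1 : ∀ i, pf f (momT (gM f) K) i x = pf f (momT (gM f) K0) i x +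
        pf f (momT (gM f) M) i x := by
      intro i
      unfold pf
      rw [← Finset.sum_add_distrib]
      exact Finset.sum_congr rfl fun j _ => by rw [hmomT]; ring
    have h2 : qp f (momT (gM f) K) x = qp f (momT (gM f) K0) x + qp f (momT (gM f) M) x := by
      unfold qp
      rw [← Finset.sum_add_distrib]
      exact Finset.sum_congr rfl fun j _ => by rw [h1]; ring
    unfold Yf
    rw [h1, h2]
    ring
  have hYs : ∑ i, pd i u x * Yf f (momT (gM f) K) i x =
      ∑ i, pd i u x * Yf f (momT (gM f) K0) i x + ∑ i, pd i u x * ym f M i x := by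
    rw [← Finset.sum_add_distrib]
    exact Finset.sum_congr rfl fun i _ => by rw [hYl]; ring
  have hYm : ∑ i, pd i u x * Yf f (momT (gM f) M) i x = ∑ i, pd i u x * ym f M i x :=
    Finset.sum_congr rfl fun i _ => by rw [Y_momT]
  have hIP : IP f (momT (gM f) K) x = IP f (momT (gM f) K0) x + IP f (momT (gM f) M) x := by
    unfold IP
    rw [← Finset.sum_add_distrib]
    refine Finset.sum_congr rfl fun i _ => ?_
    rw [← Finset.sum_add_distrib]
    refine Finset.sum_congr rfl fun k _ => ?_
    rw [← mul_add, ← Finset.sum_add_distrib]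
    congr 1
    refine Finset.sum_congr rfl fun j _ => ?_
    rw [← Finset.sum_add_distrib]
    exact Finset.sum_congr rfl fun l _ => by rw [hmomT]; ring
  have hmom : ∀ j, mom (gM f) K j x = mom (gM f) K0 j x + mom (gM f) M j x := by
    intro j
    unfold mom
    simp only [← Finset.sum_add_distrib]
    refine Finset.sum_congr rfl fun i _ => Finset.sum_congr rfl fun k _ => ?_
    rw [← mul_add]
    congr 1
    have h1 : pd k (fun y => momT (gM f) K y i j) x =
        pd k (fun y => momT (gM f) K0 y i j) x + pd k (fun y => momT (gM f) M y i j) x := by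
      rw [← ((hp (hP0 i j) k x).add (hp (hPM i j) k x)).pd]
      congr 1
      funext y
      exact hmomT y i j
    rw [h1]
    have h2 : ∑ l, (chr (gM f) l k i x * momT (gM f) K x l j +
        chr (gM f) l k j x * momT (gM f) K x i l) =
        ∑ l, (chr (gM f) l k i x * momT (gM f) K0 x l j +
          chr (gM f) l k j x * momT (gM f) K0 x i l) +
        ∑ l, (chr (gM f) l k i x * momT (gM f) M x l j +
          chr (gM f) l k j x * momT (gM f) M x i l) := by
      rw [← Finset.sum_add_distrib]
      exact Finset.sum_congr rfl fun l _ => by rw [hmomT, hmomT]; ring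
    rw [h2]
    ring
  have hmoms : ∑ j, pd j f x * mom (gM f) K j x =
      ∑ j, pd j f x * mom (gM f) K0 j x + ∑ j, pd j f x * mom (gM f) M j x := by
    rw [← Finset.sum_add_distrib]
    exact Finset.sum_congr rfl fun j _ => by rw [hmom]; ring
  have h2 := mom_kS hf hu x
  rw [← hK0] at h2
  have h4 : IP f (momT (gM f) K0) x = -(sg f u x * W2 f x * Sc f x) := IP_kS hf _ x
  have h5 := IP_momT hf M x
  have h7 := normSq_add f (sg f u) K M x (hadd x)
  have h10 : tr (gM f) K0 x = sg f u x * H45G.hf f x := tr_gM f (sg f u) x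
  have h11 := mu_gM hf (sg f u) x
  have h13 : sg f u x ^ 2 * W2 f x = u x ^ 2 := by
    unfold sg
    rw [mul_pow, inv_pow, hww]
    have := W2_ne f x
    field_simp
  have h14 : u x * (√(W2 f x))⁻¹ = sg f u x := rfl
  have q1 : tr (gM f) K0 x ^ 2 - normSq (gM f) K0 x = sg f u x ^ 2 * W2 f x * Sc f x := by
    have := h11
    unfold mu at this
    rw [scal_gM hf, ← hK0] at this
    linarith
  have h15 : 2 * mu (gM f) K x = Sc f x + tr (gM f) K x ^ 2 - normSq (gM f) K x := by
    unfold mu; rw [scal_gM hf]; ring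
  have hmK : (∑ j, pd j f x * ∑ i, ∑ k, up (gM f) i k x *
        (pd k (fun y => momT (gM f) K y i j) x -
        ∑ l, (chr (gM f) l k i x * momT (gM f) K x l j +
          chr (gM f) l k j x * momT (gM f) K x i l))) = ∑ j, pd j f x * mom (gM f) K j x := rfl
  have hmM : (∑ j, pd j f x * ∑ i, ∑ k, up (gM f) i k x *
        (pd k (fun y => momT (gM f) M y i j) x -
        ∑ l, (chr (gM f) l k i x * momT (gM f) M x l j +
          chr (gM f) l k j x * momT (gM f) M x i l))) = ∑ j, pd j f x * mom (gM f) M j x := rfl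
  rw [hmK, hmM, hYs, hYm, hIP, h4, h5, h14]
  rw [h14] at h2
  have e1 : 2 * mu (gM f) K x = Sc f x + sg f u x ^ 2 * W2 f x * Sc f x +
      2 * (sg f u x * H45G.hf f x) * tr (gM f) M x + tr (gM f) M x ^ 2 -
      2 * (sg f u x * IP f M x) - normSq (gM f) M x := by
    rw [h15, htr, h7, ← q1, h10]
    ring
  have e2 : sg f u x * ∑ j, pd j f x * mom (gM f) M j x =
      sg f u x * ∑ j, pd j f x * mom (gM f) K j x -
      (∑ i, pd i u x * Yf f (momT (gM f) K0) i x) * (√(W2 f x))⁻¹ := by
    rw [hmoms, mul_add, h2]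
    ring
  rw [e2]
  have e3 : 2 * (mu (gM f) K x - sg f u x * ∑ j, pd j f x * mom (gM f) K j x) =
      2 * mu (gM f) K x - 2 * (sg f u x * ∑ j, pd j f x * mom (gM f) K j x) := by ring
  rw [e3, e1]
  ring

end Vale.Agent.H45G.M745
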