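import Vale.Agent.P366.H745.CH.Fin
import Vale.Agent.P366.H745.CH.Ident

/-! The energy bound for `K = u A + M` with `M` arbitrary, several convex bodies. -/

open MeasureTheory Metric Filter Topology Set
open scoped ContDiff ENNReal

noncomputable section
namespace Vale.Agent.H745C

open Vale.Agent.P366 (flux)
open Vale.Agent.P366.CH
open Vale.Agent.P366.Kerr (NullCone)
open Vale.Agent.P366.Stmt
open Vale.Agent.P366.GraphClass
open Vale.Agent.H45G
open Vale.Agent.H45G.M745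

variable {n : ℕ}

lemma smooth_Xf {f u : E n → ℝ} (hf : Smooth f) (hu : Smooth u) {P : Field n}
    (hPs : ∀ i j, Smooth fun x => P x i j) (i : Fin n) : Smooth (Xf f u P i) := by
  have hpf : ∀ i, Smooth (pf f P i) := fun i =>
    ContDiff.sum fun j _ => ContDiff.mul (hPs i j) (smooth_pd hf j)
  unfold Xf Yf qp
  refine ContDiff.mul (ContDiff.neg (ContDiff.mul hu (smooth_w hf))) (ContDiff.sub (hpf i) ?_)
  refine ContDiff.mul (ContDiff.mul (smooth_pd hf i) (ContDiff.sum fun j _ =>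
    ContDiff.mul (smooth_pd hf j) (hpf j))) ((smooth_W2 hf).inv fun x => W2_ne f x)

lemma w_inv_le (f : E n → ℝ) (x : E n) : |(√(W2 f x))⁻¹| ≤ 1 := by
  have h1 : 1 ≤ W2 f x := by
    unfold W2
    have : 0 ≤ ∑ i, pd i f x ^ 2 := Finset.sum_nonneg fun i _ => sq_nonneg _
    linarith
  have h2 : 1 ≤ √(W2 f x) := Real.one_le_sqrt.2 h1
  rw [abs_of_nonneg (inv_nonneg.2 (Real.sqrt_nonneg _))]
  exact inv_le_one_of_one_le₀ h2

/-- The flux at infinity. -/
theorem flux_infM (hn : 3 ≤ n) {D : Exterior n} {f u : E n → ℝ} (hf : Smooth f)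
    (hu : Smooth u) (hg : ∀ x, 0 ≤ D.F x → ∀ i j, D.g x i j = gM f x i j)
    (hAF : D.IsAF) {m : ℝ} (hm : D.IsEnergy m) {M : Field n}
    (hM : M = fun y i j => D.K y i j - kS f (sg f u) y i j)
    (hdec : ∃ a, (n : ℝ) / 2 - 1 < a ∧ ∀ i, BigO a fun x => u x * pd i f x)
    (hdecM : ∃ b, (n : ℝ) - 1 < b ∧ ∀ i, BigO b fun x => u x * ym f M i x) :
    Tendsto (flux fun i x => (Vf f i x + Xf f u (momT (gM f) D.K) i x) +
      Xf f u (momT (gM f) M) i x) atTop
      (𝓝 (2 * (((n : ℝ) - 1) * Vale.Agent.P366.omega n * m))) := by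
  have hKs : ∀ i j, Smooth fun x => D.K x i j := fun i j => (D.smooth i j).2
  have hMs : ∀ i j, Smooth fun x => M x i j := fun i j => by
    rw [hM]
    exact ContDiff.sub (hKs i j) (ContDiff.mul (smooth_sg hf hu) (smooth_pd (smooth_pd hf j) i))
  obtain ⟨b, hb, hbM⟩ := hdecM
  have h1 := flux_inf hn hf hu hKs hg (fun _ _ _ _ => rfl) hAF hm hdec
  have h2 : Tendsto (flux fun i x => Xf f u (momT (gM f) M) i x) atTop (𝓝 0) := by
    refine flux_lim (by omega) hb fun i => bo_le (R := 0) (hbM i) fun x _ => ?_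
    unfold Xf
    rw [Y_momT, neg_mul, abs_neg]
    have e : u x * (√(W2 f x))⁻¹ * ym f M i x = (√(W2 f x))⁻¹ * (u x * ym f M i x) := by ring
    rw [e, abs_mul]
    exact mul_le_of_le_one_left (abs_nonneg _) (w_inv_le f x)
  have h3 := h1.add h2
  rw [add_zero] at h3
  refine h3.congr' ?_
  filter_upwards [eventually_gt_atTop 0] with ρ hρ
  exact (flux_add (fun i => (smooth_Vf hf i).add (smooth_Xf hf hu (smooth_momT hf hKs) i))
    (fun i => smooth_Xf hf hu (smooth_momT hf hMs) i) hρ).symm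

/-- The boundary flux density. -/
theorem bdry_geM {f : E n → ℝ} (u : E n → ℝ) (K : Field n) {r a : ℝ} {ν : Fin n → ℝ}
    {x : E n} (h : Lev f r ν a x) (hua : u x * a = -1)
    (hth : ((n : ℝ) - 1) / r * (√(W2 f x))⁻¹ + tt ν (K x) ≤ 0) {M : Field n}
    (hM : M = fun y i j => K y i j - kS f (sg f u) y i j) :
    ((n : ℝ) - 1) / r ≤ ∑ i, ((Vf f i x + Xf f u (momT (gM f) K) i x) +
      Xf f u (momT (gM f) M) i x) * ν i := by
  have h1 := bdry_ge u K h hua hth
  have h2 : ∑ i, ((Vf f i x + Xf f u (momT (gM f) K) i x) +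
      Xf f u (momT (gM f) M) i x) * ν i =
      ∑ i, (Vf f i x + Xf f u (momT (gM f) K) i x) * ν i +
      ∑ i, Xf f u (momT (gM f) M) i x * ν i := by
    rw [← Finset.sum_add_distrib]
    exact Finset.sum_congr rfl fun i _ => by ring
  rw [h2, Xf_lev u M h, hua]
  have h3 : tt ν (M x) = tt ν (K x) - sg f u x * (((n : ℝ) - 1) / r * a) := by
    rw [← tt_kS h, hM]
    unfold tt
    simp only [mul_sub, Finset.sum_sub_distrib]
    ring
  have h4 : sg f u x * (((n : ℝ) - 1) / r * a) = -(((n : ℝ) - 1) / r * (√(W2 f x))⁻¹) := by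
    unfold sg
    have : u x * (√(W2 f x))⁻¹ * (((n : ℝ) - 1) / r * a) =
      (u x * a) * (((n : ℝ) - 1) / r * (√(W2 f x))⁻¹) := by ring
    rw [this, hua]; ring
  rw [h3, h4]
  have hw : 0 < (√(W2 f x))⁻¹ := inv_pos.2 (Real.sqrt_pos.2 (W2_pos f x))
  have h5 : (√(W2 f x))⁻¹ * (((n : ℝ) - 1) / r * (√(W2 f x))⁻¹ + tt ν (K x)) ≤ 0 :=
    mul_nonpos_of_nonneg_of_nonpos hw.le hth
  have h6 : -1 * ((√(W2 f x))⁻¹ * (tt ν (K x) - -(((n : ℝ) - 1) / r * (√(W2 f x))⁻¹))) =
      -((√(W2 f x))⁻¹ * (((n : ℝ) - 1) / r * (√(W2 f x))⁻¹ + tt ν (K x))) := by ring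
  rw [h6]
  linarith

variable {ι : Type} [Fintype ι] {C : ι → NullCone n}

/-- The energy bound. -/
theorem energyM [Fact (3 ≤ n)] {D : Exterior n} {f u : E n → ℝ}
    (hAF : D.IsAF) (hT : D.Trapped) {m : ℝ} (hm : D.IsEnergy m)
    (hB : Bodies D.F C) (hf : Smooth f) (hu : Smooth u)
    (hg : ∀ x, 0 ≤ D.F x → ∀ i j, D.g x i j = gM f x i j)
    (hlev : ∀ k x y, ‖x‖ = 1 → ‖y‖ = 1 → f (bp (C k) x) = f (bp (C k) y))
    (hua : ∀ k x, ‖x‖ = 1 → u (bp (C k) x) * (∑ i, pd i f (bp (C k) x) * x i) = -1)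
    (hdec : ∃ a, (n : ℝ) / 2 - 1 < a ∧ ∀ i, BigO a fun x => u x * pd i f x)
    (hdecM : ∃ b, (n : ℝ) - 1 < b ∧ ∀ i, BigO b fun x => u x *
      ((∑ j, rest D.K f u x i j * pd j f x) - trE (rest D.K f u) x * pd i f x))
    (hin : ∀ x, 0 < D.F x → tr D.g (rest D.K f u) x ^ 2 - normSq D.g (rest D.K f u) x +
      2 * (∑ i, pd i u x * ((∑ j, rest D.K f u x i j * pd j f x) -
        trE (rest D.K f u) x * pd i f x)) / slope f x ≤
      2 * (mu D.g D.K x - u x / slope f x * ∑ j, pd j f x * mom D.g D.K j x)) :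
    bArea C ≤ m := by
  have hn := Fact.out (p := 3 ≤ n)
  have hFs := D.dom.1
  have hKs : ∀ i j, Smooth fun x => D.K x i j := fun i j => (D.smooth i j).2
  have hKy : ∀ x i j, D.K x i j = D.K x j i := fun x i j => (D.symm x i j).2
  obtain ⟨M, hM⟩ : ∃ M : Field n, M = fun y i j => D.K y i j - kS f (sg f u) y i j := ⟨_, rfl⟩
  have hMr : ∀ x i j, rest D.K f u x i j = M x i j := by
    intro x i j
    rw [hM]
    unfold rest secondForm kS sg
    rw [slope_eq]
    ring
  have hMr' : rest D.K f u = M := by funext x i j; exact hMr x i j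
  have hMs : ∀ i j, Smooth fun x => M x i j := fun i j => by
    rw [hM]
    exact ContDiff.sub (hKs i j) (ContDiff.mul (smooth_sg hf hu) (smooth_pd (smooth_pd hf j) i))
  rw [hMr'] at hin hdecM
  have hZ : ∀ i, Smooth fun x => (Vf f i x + Xf f u (momT (gM f) D.K) i x) +
      Xf f u (momT (gM f) M) i x := fun i =>
    ((smooth_Vf hf i).add (smooth_Xf hf hu (smooth_momT hf hKs) i)).add
      (smooth_Xf hf hu (smooth_momT hf hMs) i)
  have hlim := flux_infM hn hf hu hg hAF hm hM hdec hdecM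
  have h := bArea_le (S := 0) (m := m) hB.rad ((flux_main hB hZ ?_ ?_ hlim).trans
    (le_of_eq (by ring)))
  · simpa using h
  · intro x hF0
    have hev : ∀ᶠ y in 𝓝 x, 0 < D.F y :=
      (isOpen_lt continuous_const hFs.continuous).mem_nhds hF0
    obtain ⟨h1, h2, h3, h4, h5⟩ := germ (K := D.K) (K' := D.K)
      (hev.mono fun y hy i j => hg y hy.le i j) (Eventually.of_forall fun y i j => rfl)
    have h6 : tr D.g M x = tr (gM f) M x := by simp only [tr, h1]
    have h7 : normSq D.g M x = normSq (gM f) M x := by simp only [normSq, h1]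
    have h8 := hin x hF0
    rw [h6, h7, h3] at h8
    simp only [h4] at h8
    rw [div_Zm hf hu hKs hKy hM x]
    have h9 : (∑ i, pd i u x * ym f M i x) * (√(W2 f x))⁻¹ =
        (∑ i, pd i u x * ((∑ j, M x i j * pd j f x) - trE M x * pd i f x)) / slope f x := by
      rw [slope_eq]; rfl
    have h10 : u x * (√(W2 f x))⁻¹ = u x / slope f x := by rw [slope_eq]; rfl
    rw [h9, h10]
    have h11 : 2 * (∑ i, pd i u x * ((∑ j, M x i j * pd j f x) - trE M x * pd i f x)) /
        slope f x = 2 * ((∑ i, pd i u x * ((∑ j, M x i j * pd j f x) -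
        trE M x * pd i f x)) / slope f x) := by ring
    rw [h11] at h8
    linarith
  · intro k x hx
    obtain ⟨hr, he, hL, hth⟩ := bdr_data hT hB hf hg hlev k hx
    have h1 := bdry_geM u D.K hL (hua k x hx) hth hM
    rwa [he] at h1

end Vale.Agent.H745C
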