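import Vale.Agent.P366.H745.CH.EnergyM

/-! The energy-momentum bound for `K = u A + M` with `M` arbitrary and a vector field `Y`. -/

open MeasureTheory Metric Filter Topology Set
open scoped ContDiff ENNReal

noncomputable section
namespace Vale.Agent.H745C

open Vale.Agent.P366 (flux)
open Vale.Agent.P366.CH
open Vale.Agent.P366.Kerr (NullCone)
open Vale.Agent.P366.Stmt
open Vale.Agent.P366.GraphClass
open Vale.Agent.H45G
open Vale.Agent.H45G.M745

variable {n : ℕ}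

/-- The flux of the momentum field. -/
theorem flux_infXy (hn : 3 ≤ n) {D : Exterior n} {f : E n → ℝ} {Y : Fin n → E n → ℝ}
    (hf : Smooth f) (hY : ∀ i, Smooth (Y i))
    (hg : ∀ x, 0 ≤ D.F x → ∀ i j, D.g x i j = gM f x i j)
    (hAF : D.IsAF) {m : ℝ} (hm : D.IsEnergy m) {p : Fin n → ℝ} (hp : D.IsMomentum p)
    {y : Fin n → ℝ} {a : ℝ} (ha : (n : ℝ) / 2 - 1 < a)
    (hYa : ∀ i, BigO a fun x => Y i x - y i) :
    Tendsto (flux fun i x => Xy f (momT (gM f) D.K) Y i x) atTop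
      (𝓝 (-(((n : ℝ) - 1) * Vale.Agent.P366.omega n * ∑ j, y j * p j))) := by
  have hPs := smooth_momT hf fun i j => (D.smooth i j).2
  have h1 := flux_infY hn hf hY hg hAF hm hp ha hYa
  have h2 := flux_infY hn hf (Y := fun _ _ => 0) (y := fun _ => 0) (fun i => contDiff_const) hg
    hAF hm hp ha (fun i => by simpa using bo_zero a)
  have h0 : ∀ i x, Xy f (momT (gM f) D.K) (fun _ _ => 0) i x = 0 := fun i x => by
    have := Xy_smul (f := f) (P := momT (gM f) D.K) (Y := fun _ _ => 0)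
      (Y' := fun _ _ => 0) (x := x) (l := 0) (fun i => by simp) i
    simpa using this
  simp only [h0, add_zero, zero_mul, Finset.sum_const_zero, mul_zero, sub_zero] at h2
  have h3 := h1.sub h2
  have e : 2 * (((n : ℝ) - 1) * Vale.Agent.P366.omega n * m) -
      ((n : ℝ) - 1) * Vale.Agent.P366.omega n * ∑ j, y j * p j -
      2 * (((n : ℝ) - 1) * Vale.Agent.P366.omega n * m) =
      -(((n : ℝ) - 1) * Vale.Agent.P366.omega n * ∑ j, y j * p j) := by ring
  rw [e] at h3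
  refine h3.congr' ?_
  filter_upwards [eventually_gt_atTop 0] with ρ hρ
  rw [flux_add (smooth_Vf hf) (smooth_Xy hf hPs hY) hρ]
  have : (flux fun i x => Vf f i x) ρ = flux (Vf f) ρ := rfl
  rw [this]
  ring

/-- The boundary flux density. -/
theorem bdry_geMY {f : E n → ℝ} (u : E n → ℝ) (K : Field n) {r a : ℝ} {ν : Fin n → ℝ}
    {x : E n} (h : Lev f r ν a x) (hr : 0 ≤ ((n : ℝ) - 1) / r) {Y : Fin n → E n → ℝ} {l : ℝ}
    (hl : (1 + u x * a) ^ 2 ≤ l) (hY : ∀ i, Y i x = -(l * (ν i / W2 f x)))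
    (hth : ((n : ℝ) - 1) / r * (√(W2 f x))⁻¹ + tt ν (K x) ≤ 0) {M : Field n}
    (hM : M = fun y i j => K y i j - kS f (sg f u) y i j) :
    ((n : ℝ) - 1) / r ≤ ∑ i, (((Vf f i x + Xf f u (momT (gM f) K) i x) +
      Xf f u (momT (gM f) M) i x) + Xy f (momT (gM f) K) Y i x) * ν i := by
  have hW := W2_lev h
  have hW0 := W2_pos f x
  have hww : √(W2 f x) ^ 2 = W2 f x := Real.sq_sqrt hW0.le
  have hw : 0 < (√(W2 f x))⁻¹ := inv_pos.2 (Real.sqrt_pos.2 hW0)
  have hs := Xy_smul (f := f) (P := momT (gM f) K) (Y := Y)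
    (Y' := fun i _ => -(ν i / W2 f x)) (x := x) (l := l) fun i => by rw [hY]; ring
  have hX : ∑ i, Xy f (momT (gM f) K) Y i x * ν i = l * -((√(W2 f x))⁻¹ * tt ν (K x)) := by
    rw [← Xy_lev K h (Y := fun i _ => -(ν i / W2 f x)) fun i => rfl, Finset.mul_sum]
    exact Finset.sum_congr rfl fun i _ => by rw [hs]; ring
  have h2 : ∑ i, (((Vf f i x + Xf f u (momT (gM f) K) i x) +
      Xf f u (momT (gM f) M) i x) + Xy f (momT (gM f) K) Y i x) * ν i =
      ∑ i, Vf f i x * ν i + ∑ i, Xf f u (momT (gM f) K) i x * ν i +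
      ∑ i, Xf f u (momT (gM f) M) i x * ν i + ∑ i, Xy f (momT (gM f) K) Y i x * ν i := by
    simp only [← Finset.sum_add_distrib]
    exact Finset.sum_congr rfl fun i _ => by ring
  rw [h2, Vf_lev h, Xf_lev u K h, Xf_lev u M h, hX]
  have h3 : tt ν (M x) = tt ν (K x) - sg f u x * (((n : ℝ) - 1) / r * a) := by
    rw [← tt_kS h, hM]
    unfold tt
    simp only [mul_sub, Finset.sum_sub_distrib]
    ring
  rw [h3]
  unfold sg
  set w := √(W2 f x) with hwd
  set H := ((n : ℝ) - 1) / r with hH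
  set τ := tt ν (K x) with hτ
  set s := u x * a with hsd
  have hw0 : 0 < w := inv_pos.1 hw
  have hwn : w ≠ 0 := hw0.ne'
  have e1 : s * (w⁻¹ * (τ - u x * w⁻¹ * (H * a))) = s * w⁻¹ * τ - s ^ 2 * (w⁻¹ * w⁻¹ * H) := by
    rw [hsd]; ring
  rw [e1, ← hww]
  have ha2 : a ^ 2 = w ^ 2 - 1 := by rw [hww, hW]; ring
  have h4 : 0 ≤ l - 2 * s := by nlinarith [sq_nonneg (1 + s), sq_nonneg s]
  have h5 : 0 ≤ (l - 2 * s) * (w⁻¹ * -(H * w⁻¹ + τ)) :=
    mul_nonneg h4 (mul_nonneg hw.le (by linarith))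
  have h6 : 0 ≤ (l - (1 + s) ^ 2) * (w⁻¹ * w⁻¹ * H) :=
    mul_nonneg (by linarith) (mul_nonneg (mul_nonneg hw.le hw.le) hr)
  have e2 : H * (a ^ 2 / w ^ 2) = H - w⁻¹ * w⁻¹ * H := by
    rw [ha2]
    field_simp
  rw [e2]
  nlinarith [h5, h6]

variable {ι : Type} [Fintype ι] {C : ι → NullCone n}

/-- The energy-momentum bound. -/
theorem energyMY [Fact (3 ≤ n)] {D : Exterior n} {f u : E n → ℝ}
    (hAF : D.IsAF) (hT : D.Trapped) {m : ℝ} (hm : D.IsEnergy m)
    {P : Fin n → ℝ} (hP : D.IsMomentum P)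
    (hB : Bodies D.F C) (hf : Smooth f) (hu : Smooth u)
    (hg : ∀ x, 0 ≤ D.F x → ∀ i j, D.g x i j = gM f x i j)
    (hlev : ∀ k x y, ‖x‖ = 1 → ‖y‖ = 1 → f (bp (C k) x) = f (bp (C k) y))
    {Y : Fin n → E n → ℝ} (hY : ∀ i, Smooth (Y i)) {y : Fin n → ℝ}
    (hYa : ∃ a : ℝ, (n : ℝ) / 2 - 1 < a ∧ ∀ i, BigO a fun x => Y i x - y i)
    (hYS : ∀ k x, ‖x‖ = 1 → ∃ l : ℝ,
      (1 + u (bp (C k) x) * ∑ i, pd i f (bp (C k) x) * x i) ^ 2 ≤ l ∧
      ∀ i, Y i (bp (C k) x) = -(l * (x i / slope f (bp (C k) x) ^ 2)))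
    (hdec : ∃ a, (n : ℝ) / 2 - 1 < a ∧ ∀ i, BigO a fun x => u x * pd i f x)
    (hdecM : ∃ b, (n : ℝ) - 1 < b ∧ ∀ i, BigO b fun x => u x *
      ((∑ j, rest D.K f u x i j * pd j f x) - trE (rest D.K f u) x * pd i f x))
    (hin : ∀ x, 0 < D.F x → tr D.g (rest D.K f u) x ^ 2 - normSq D.g (rest D.K f u) x +
      2 * (∑ i, pd i u x * ((∑ j, rest D.K f u x i j * pd j f x) -
        trE (rest D.K f u) x * pd i f x)) / slope f x +
      slope f x * (∑ j, Y j x * mom D.g D.K j x + piDer D.g D.K Y x) ≤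
      2 * (mu D.g D.K x - u x / slope f x * ∑ j, pd j f x * mom D.g D.K j x)) :
    bArea C ≤ m - (∑ j, y j * P j) / 2 := by
  have hn := Fact.out (p := 3 ≤ n)
  have hFs := D.dom.1
  have hKs : ∀ i j, Smooth fun x => D.K x i j := fun i j => (D.smooth i j).2
  have hKy : ∀ x i j, D.K x i j = D.K x j i := fun x i j => (D.symm x i j).2
  obtain ⟨a0, ha0, hYa⟩ := hYa
  obtain ⟨M, hM⟩ : ∃ M : Field n, M = fun y i j => D.K y i j - kS f (sg f u) y i j := ⟨_, rfl⟩
  have hMr : ∀ x i j, rest D.K f u x i j = M x i j := by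
    intro x i j
    rw [hM]
    unfold rest secondForm kS sg
    rw [slope_eq]
    ring
  have hMr' : rest D.K f u = M := by funext x i j; exact hMr x i j
  have hMs : ∀ i j, Smooth fun x => M x i j := fun i j => by
    rw [hM]
    exact ContDiff.sub (hKs i j) (ContDiff.mul (smooth_sg hf hu) (smooth_pd (smooth_pd hf j) i))
  rw [hMr'] at hin hdecM
  have hPs := smooth_momT hf hKs
  have hZ0 : ∀ i, Smooth fun x => (Vf f i x + Xf f u (momT (gM f) D.K) i x) +
      Xf f u (momT (gM f) M) i x := fun i =>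
    ((smooth_Vf hf i).add (smooth_Xf hf hu hPs i)).add
      (smooth_Xf hf hu (smooth_momT hf hMs) i)
  have hXy := smooth_Xy hf hPs hY
  have hZ : ∀ i, Smooth fun x => ((Vf f i x + Xf f u (momT (gM f) D.K) i x) +
      Xf f u (momT (gM f) M) i x) + Xy f (momT (gM f) D.K) Y i x := fun i =>
    (hZ0 i).add (hXy i)
  have hlim := (flux_infM hn hf hu hg hAF hm hM hdec hdecM).add
    (flux_infXy hn hf hY hg hAF hm hP ha0 hYa)
  have hlim' : Tendsto (flux fun i x => ((Vf f i x + Xf f u (momT (gM f) D.K) i x) +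
      Xf f u (momT (gM f) M) i x) + Xy f (momT (gM f) D.K) Y i x) atTop
      (𝓝 (2 * (((n : ℝ) - 1) * Vale.Agent.P366.omega n * m) -
        ((n : ℝ) - 1) * Vale.Agent.P366.omega n * ∑ j, y j * P j)) := by
    rw [← sub_eq_add_neg] at hlim
    refine hlim.congr' ?_
    filter_upwards [eventually_gt_atTop 0] with ρ hρ
    exact (flux_add hZ0 hXy hρ).symm
  have h := bArea_le (S := ∑ j, y j * P j) (m := m) hB.rad (flux_main hB hZ ?_ ?_ hlim')
  · exact h
  · intro x hF0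
    have hev : ∀ᶠ y in 𝓝 x, 0 < D.F y :=
      (isOpen_lt continuous_const hFs.continuous).mem_nhds hF0
    obtain ⟨h1, h2, h3, h4, h5⟩ := germ (K := D.K) (K' := D.K)
      (hev.mono fun y hy i j => hg y hy.le i j) (Eventually.of_forall fun y i j => rfl)
    obtain ⟨h12, h13⟩ := germY (K := D.K) (hev.mono fun y hy i j => hg y hy.le i j) Y
    have h6 : tr D.g M x = tr (gM f) M x := by simp only [tr, h1]
    have h7 : normSq D.g M x = normSq (gM f) M x := by simp only [normSq, h1]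
    have h8 := hin x hF0
    rw [h6, h7, h3, h13] at h8
    simp only [h4] at h8
    have hd : ∀ i, pd i (fun y => ((Vf f i y + Xf f u (momT (gM f) D.K) i y) +
        Xf f u (momT (gM f) M) i y) + Xy f (momT (gM f) D.K) Y i y) x =
        pd i (fun y => (Vf f i y + Xf f u (momT (gM f) D.K) i y) +
          Xf f u (momT (gM f) M) i y) x + pd i (Xy f (momT (gM f) D.K) Y i) x := fun i =>
      ((hp (hZ0 i) i x).add (hp (hXy i) i x)).pd
    simp only [hd]
    rw [Finset.sum_add_distrib, div_Zm hf hu hKs hKy hM x, div_Xy hf hPs hY]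
    have h14 : (∑ j, Y j x * ∑ i, ∑ k, up (gM f) i k x *
        (pd k (fun y => momT (gM f) D.K y i j) x -
        ∑ l, (chr (gM f) l k i x * momT (gM f) D.K x l j +
          chr (gM f) l k j x * momT (gM f) D.K x i l))) =
        ∑ j, Y j x * mom (gM f) D.K j x := rfl
    rw [h14]
    have h9 : (∑ i, pd i u x * ym f M i x) * (√(W2 f x))⁻¹ =
        (∑ i, pd i u x * ((∑ j, M x i j * pd j f x) - trE M x * pd i f x)) / slope f x := by
      rw [slope_eq]; rfl
    have h10 : u x * (√(W2 f x))⁻¹ = u x / slope f x := by rw [slope_eq]; rfl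
    rw [h9, h10]
    have h15 : √(W2 f x) = slope f x := (slope_eq f x).symm
    rw [h15]
    have h11 : 2 * (∑ i, pd i u x * ((∑ j, M x i j * pd j f x) - trE M x * pd i f x)) /
        slope f x = 2 * ((∑ i, pd i u x * ((∑ j, M x i j * pd j f x) -
        trE M x * pd i f x)) / slope f x) := by ring
    rw [h11] at h8
    linarith
  · intro k x hx
    obtain ⟨hr, he, hL, hth⟩ := bdr_data hT hB hf hg hlev k hx
    obtain ⟨l, hl, hYl⟩ := hYS k x hx
    have h0 : 0 ≤ ((n : ℝ) - 1) / (((n : ℝ) - 1) / mc (C k) x) := by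
      have : (3 : ℝ) ≤ n := by exact_mod_cast hn
      exact div_nonneg (by linarith) hr.le
    have hw2 : slope f (bp (C k) x) ^ 2 = W2 f (bp (C k) x) := by
      rw [slope_eq]; exact Real.sq_sqrt (W2_pos f _).le
    have h1 := bdry_geMY (Y := Y) u D.K hL h0 hl (fun i => by rw [hYl i, hw2]) hth hM
    rwa [he] at h1

end Vale.Agent.H745C
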