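import Vale.Agent.P366.H745.CH.Pen
import Vale.Agent.P366.H45.G21

/-! The two energy bounds outside several convex bodies, in the final form. -/

open MeasureTheory Metric Filter Topology Set
open scoped ContDiff ENNReal

noncomputable section
namespace Vale.Agent.H745C

open Vale.Agent.P366.CH
open Vale.Agent.P366.Kerr (NullCone)
open Vale.Agent.P366.Stmt
open Vale.Agent.P366.GraphClass
open Vale.Agent.H45G

variable {n : ℕ} {ι : Type} [Fintype ι] {C : ι → NullCone n}

/-- Part (1): the energy bound. -/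
theorem energyR [Fact (3 ≤ n)] {D : Exterior n} {f u : E n → ℝ}
    (hAF : D.IsAF) (hDEC : D.DEC) (hT : D.Trapped) {m : ℝ} (hm : D.IsEnergy m)
    (hB : Bodies D.F C) (hf : Smooth f) (hu : Smooth u)
    (hg : ∀ x, 0 ≤ D.F x → ∀ i j, D.g x i j = gM f x i j)
    (hlev : ∀ k x y, ‖x‖ = 1 → ‖y‖ = 1 → f (bp (C k) x) = f (bp (C k) y))
    (htilt : ∀ x, 0 ≤ D.F x → u x ^ 2 * ∑ i, pd i f x ^ 2 ≤ 1)
    (hdec : ∃ a : ℝ, (n : ℝ) / 2 - 1 < a ∧ ∀ i, BigO a fun x => u x * pd i f x)
    (a1 : ∀ x, 0 ≤ D.F x → ∀ i, ∑ j, rest D.K f u x i j * pd j f x =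
      trE (rest D.K f u) x * pd i f x)
    (a2 : ∀ x, 0 ≤ D.F x → (∀ i, pd i f x = 0) →
      trE (rest D.K f u) x ^ 2 ≤ ∑ i, ∑ j, rest D.K f u x i j ^ 2)
    (a3 : ∀ k x, ‖x‖ = 1 → (∀ i, pd i f (bp (C k) x) = 0) →
      ∑ i, ∑ j, x i * x j * rest D.K f u (bp (C k) x) i j =
        trE (rest D.K f u) (bp (C k) x)) :
    bArea C ≤ m := by
  have hn := Fact.out (p := 3 ≤ n)
  have hn0 : 0 < (n : ℝ) - 1 := by
    have : (3 : ℝ) ≤ n := by exact_mod_cast hn
    linarith
  have hW : ∀ x, W2 f x - 1 = ∑ i, pd i f x ^ 2 := fun x => by unfold W2; ring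
  have htilt' : ∀ x, 0 ≤ D.F x → u x ^ 2 * (W2 f x - 1) ≤ 1 := fun x hx => by
    rw [hW]; exact htilt x hx
  have hKM' : ∀ x, ∀ i j, D.K x i j - kS f (sg f u) x i j = rest D.K f u x i j := by
    intro x i j
    unfold rest secondForm kS sg
    rw [slope_eq]
    ring
  have hrow : ∀ x, 0 ≤ D.F x → Row f (fun y i j => D.K y i j - kS f (sg f u) y i j) x := by
    intro x hx i
    unfold te
    simp only [hKM']
    exact a1 x hx i
  refine energyU hAF hDEC hT hm hB hf hu hg hlev ?_ (fun x hx => htilt' x hx.le) ?_ hdec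
  · intro k x hx hth hL hr
    have hF0 : 0 ≤ D.F (bp (C k) x) := (hB.bdr k x hx).ge
    set q := bp (C k) x with hq
    set r := ((n : ℝ) - 1) / mc (C k) x with hrd
    set a := ∑ i, pd i f q * x i with ha
    set M := rest D.K f u with hMd
    have htt : tt (fun i => x i) (D.K q) = tt (fun i => x i) (kS f (sg f u) q) := by
      have e1 : tt (fun i => x i) (D.K q) = tt (fun i => x i) (kS f (sg f u) q) +
          (∑ i, M q i i - ∑ i, ∑ j, x i * x j * M q i j) := by
        unfold tt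
        have e2 : ∑ i, D.K q i i = ∑ i, kS f (sg f u) q i i + ∑ i, M q i i := by
          rw [← Finset.sum_add_distrib]
          exact Finset.sum_congr rfl fun i _ => by rw [← hKM' q]; ring
        have e3 : ∑ i, ∑ j, x i * x j * D.K q i j =
            ∑ i, ∑ j, x i * x j * kS f (sg f u) q i j +
            ∑ i, ∑ j, x i * x j * M q i j := by
          simp only [← Finset.sum_add_distrib]
          exact Finset.sum_congr rfl fun i _ => Finset.sum_congr rfl fun j _ => by
            rw [← hKM' q]; ring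
        rw [e2, e3]
        ring
      have e4 : ∑ i, ∑ j, x i * x j * M q i j = ∑ i, M q i i := by
        by_cases h0 : ∀ i, pd i f q = 0
        · exact a3 k x hx h0
        · have ha0 : a ≠ 0 := by
            intro ha0
            apply h0
            intro i
            rw [hL.fst, ha0]; ring
          have h1 : ∀ i, ∑ j, x j * M q i j = (∑ k, M q k k) * x i := by
            intro i
            have h2 := a1 q hF0 i
            have h3 : ∑ j, M q i j * pd j f q = a * ∑ j, x j * M q i j := by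
              rw [Finset.mul_sum]
              exact Finset.sum_congr rfl fun j _ => by rw [hL.fst]; ring
            rw [h3, hL.fst] at h2
            have h4 : a * ∑ j, x j * M q i j = a * ((∑ k, M q k k) * x i) := by
              rw [h2]; unfold trE; ring
            exact mul_left_cancel₀ ha0 h4
          have h5 : ∀ i, ∑ j, x i * x j * M q i j = (∑ k, M q k k) * x i ^ 2 := by
            intro i
            have : ∑ j, x i * x j * M q i j = x i * ∑ j, x j * M q i j := by
              rw [Finset.mul_sum]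
              exact Finset.sum_congr rfl fun j _ => by ring
            rw [this, h1]; ring
          simp only [h5]
          rw [← Finset.mul_sum, hL.one, mul_one]
      rw [e1, e4, sub_self, add_zero]
    rw [htt, tt_kS hL] at hth
    have hw : 0 < (√(W2 f q))⁻¹ := inv_pos.2 (Real.sqrt_pos.2 (W2_pos f q))
    have h1 : ((n : ℝ) - 1) / r * (√(W2 f q))⁻¹ +
        sg f u q * (((n : ℝ) - 1) / r * a) =
        (((n : ℝ) - 1) / r * (√(W2 f q))⁻¹) * (1 + u q * a) := by
      unfold sg; ring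
    rw [h1] at hth
    have h2 : 0 < ((n : ℝ) - 1) / r * (√(W2 f q))⁻¹ := mul_pos (div_pos hn0 hr) hw
    have h3 : 1 + u q * a ≤ 0 := by
      by_contra hcon
      exact absurd hth (not_le.2 (mul_pos h2 (not_le.1 hcon)))
    have h4 := htilt' q hF0
    have h5 : W2 f q - 1 = a ^ 2 := by rw [W2_lev hL]; ring
    rw [h5, ← mul_pow] at h4
    have h6 := abs_le_of_sq_le_sq' (a := u q * a) (b := 1) (by simpa using h4) zero_le_one
    linarith [h6.1]
  · intro x hx
    have hev : ∀ᶠ y in 𝓝 x, 0 < D.F y :=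
      (isOpen_lt continuous_const D.dom.1.continuous).mem_nhds hx
    obtain ⟨h1, h2, h3, h4, h5⟩ := germ (K := D.K) (K' := D.K)
      (hev.mono fun y hy i j => hg y hy.le i j)
      (Eventually.of_forall fun y i j => rfl)
    refine star_row hf hu (fun i j => (D.smooth i j).2) (fun x i j => (D.symm x i j).2)
      (hev.mono fun y hy => hrow y hy.le) ?_ ?_ (htilt' x hx.le)
    · by_cases h0 : ∀ i, pd i f x = 0
      · simp only [hKM' x]
        exact a2 x hx.le h0
      · exact row_sq (hrow x hx.le) h0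
    · have h6 := hDEC x hx.le
      have h7 : covNorm D.g (mom D.g D.K) x = covNorm (gM f) (mom (gM f) D.K) x := by
        simp only [covNorm, h1, h4]
      rwa [h7, h3] at h6

/-- Part (2): the energy-momentum bound. -/
theorem energyP [Fact (3 ≤ n)] {D : Exterior n} {f : E n → ℝ}
    (hAF : D.IsAF) (hDEC : D.DEC) (hT : D.Trapped) {m : ℝ} (hm : D.IsEnergy m)
    {P : Fin n → ℝ} (hP : D.IsMomentum P) (hB : Bodies D.F C) (hf : Smooth f)
    (hg : ∀ x, 0 ≤ D.F x → ∀ i j, D.g x i j = gM f x i j)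
    (hlev : ∀ k x y, ‖x‖ = 1 → ‖y‖ = 1 → f (bp (C k) x) = f (bp (C k) y))
    {Y : Fin n → E n → ℝ} (hY : ∀ i, Smooth (Y i)) {y : Fin n → ℝ}
    (hYa : ∃ a : ℝ, (n : ℝ) / 2 - 1 < a ∧ ∀ i, BigO a fun x => Y i x - y i)
    (hYS : ∀ k x, ‖x‖ = 1 → ∃ l : ℝ, 1 ≤ l ∧
      ∀ i, Y i (bp (C k) x) = -(l * (x i / slope f (bp (C k) x) ^ 2)))
    (hstar : ∀ x, 0 < D.F x → slope f x * (vecLen D.g Y x * mu D.g D.K x +
      piDer D.g D.K Y x) ≤ scal D.g x) :
    bArea C ≤ m - (∑ j, y j * P j) / 2 ∧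
    ((∀ j, m * y j = 2 * P j) → ∑ j, y j ^ 2 < 4 →
      √(∑ j, P j ^ 2) < m ∧ bArea C ≤ √(m ^ 2 - ∑ j, P j ^ 2)) := by
  obtain ⟨a, ha, hYa⟩ := hYa
  have hne := nonempty_bodies hB
  have hb0 : 0 < bArea C := by
    unfold bArea
    exact Finset.sum_pos (fun k _ => mul_pos (by norm_num)
      (Real.rpow_pos_of_pos (ar_pos (C := C) k) _)) Finset.univ_nonempty
  have hw2 : ∀ x, slope f x ^ 2 = W2 f x := fun x => by
    rw [slope_eq]; exact Real.sq_sqrt (W2_pos f x).le
  have hE := energyY hAF hDEC hT hm hP hB hf hY hg hlev ha hYa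
    (fun k x hx => by
      obtain ⟨l, hl, hYl⟩ := hYS k x hx
      exact ⟨l, hl, fun i => by rw [hYl i, hw2]⟩) (by
      intro x hx
      have hev : ∀ᶠ y in 𝓝 x, 0 < D.F y :=
        (isOpen_lt continuous_const D.dom.1.continuous).mem_nhds hx
      obtain ⟨h1, h2, h3, h4, h5⟩ := germ (K := D.K) (K' := D.K)
        (hev.mono fun y hy i j => hg y hy.le i j) (Eventually.of_forall fun y i j => rfl)
      obtain ⟨h6, h7⟩ := germY (K := D.K) (hev.mono fun y hy i j => hg y hy.le i j) Y
      have h8 := hstar x hx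
      rw [h6, h7, h3, h2] at h8
      exact h8)
  refine ⟨hE, fun hy hy4 => ?_⟩
  -- the momentum
  set b := bArea C with hb
  set t := (∑ j, y j ^ 2) / 4 with ht
  have ht0 : 0 ≤ t := by
    rw [ht]; exact div_nonneg (Finset.sum_nonneg fun j _ => sq_nonneg _) (by norm_num)
  have ht1 : t < 1 := by rw [ht]; linarith
  have hPj : ∀ j, P j = m * y j / 2 := fun j => by linarith [hy j]
  have hPP : ∑ j, P j ^ 2 = m ^ 2 * t := by
    rw [ht, Finset.sum_div, Finset.mul_sum]
    exact Finset.sum_congr rfl fun j _ => by rw [hPj]; ring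
  have hyP : (∑ j, y j * P j) / 2 = m * t := by
    rw [ht, Finset.sum_div, Finset.sum_div, Finset.mul_sum]
    exact Finset.sum_congr rfl fun j _ => by rw [hPj]; ring
  rw [hyP] at hE
  have hm0 : 0 < m := by
    have h1 : 0 < m * (1 - t) := by linarith
    exact (pos_iff_pos_of_mul_pos h1).2 (by linarith)
  have hE' : b ≤ √(m ^ 2 - ∑ j, P j ^ 2) := by
    refine hE.trans ?_
    refine Real.le_sqrt_of_sq_le ?_
    rw [hPP]
    have h1 : (m - m * t) ^ 2 = m ^ 2 * ((1 - t) * (1 - t)) := by ring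
    have h2 : m ^ 2 - m ^ 2 * t = m ^ 2 * ((1 - t) * 1) := by ring
    rw [h1, h2]
    refine mul_le_mul_of_nonneg_left ?_ (sq_nonneg m)
    exact mul_le_mul_of_nonneg_left (by linarith) (by linarith)
  refine ⟨?_, hE'⟩
  rw [hPP, Real.sqrt_mul (sq_nonneg m), Real.sqrt_sq hm0.le]
  have : √t < 1 := by rw [Real.sqrt_lt' one_pos]; linarith
  nlinarith

end Vale.Agent.H745C
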