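import Vale.Agent.P366.H745.CH.EnergyM
import Vale.Agent.P366.H745.CH.Body
import Vale.Agent.P366.H745.CH.AreaCut
import Vale.Agent.P366.H375.CH.Out
import Vale.Agent.P366.H222.K.Cut

/-! The final theorem for several strictly convex bodies, with cuts, `K = u A + M` with any `M`. -/

open MeasureTheory Metric Filter Topology Set
open scoped ContDiff ENNReal

noncomputable section
namespace Vale.Agent.H745C

open Vale.Agent.P366.CH
open Vale.Agent.P366.Convex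
open Vale.Agent.P366.H353.N (SI om SI_congr ne_zero_of_one)
open Vale.Agent.P366.Kerr (NullCone IsCut)
open Vale.Agent.P366.KSN (dts OO mem_OO)
open Vale.Agent.P366.Stmt
open Vale.Agent.P366.GraphClass
open Vale.Agent.H45G

variable {n : ℕ} {ι : Type}

lemma surfArea_eq2 (h : E n → ℝ) : surfArea h =
    SI fun x => (Matrix.of fun i j => pd i (pd j h) x + x i * x j).det := by
  unfold surfArea
  rw [Vale.Agent.P366.KSN.sphInt_SI, one_pow, one_mul]
  simp only [one_smul]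

variable [Fintype ι]

/-- The final theorem. -/
theorem final2 (hn : 3 ≤ n) (D D' : Exterior n) (hO : IsCut D' D) (hAF : D.IsAF) (hDEC : D'.DEC)
    (hT : D'.Trapped) (m : ℝ) (hm : D.IsEnergy m) (h : ι → E n → ℝ)
    (hs : ∀ k, IsSupport (h k))
    (hsep : ∀ j k, j ≠ k → ∀ y : E n, ¬ ((∀ x, len x = 1 → ∑ i, x i * y i ≤ h j x) ∧
      ∀ x, len x = 1 → ∑ i, x i * y i ≤ h k x))
    (hS : ∀ y, D'.F y < 0 ↔ ∃ k, ∀ x, len x = 1 → ∑ i, x i * y i < h k x)
    (f : E n → ℝ) (hf : Smooth f)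
    (hlev : ∀ k x y, len x = 1 → len y = 1 → f (ray (h k) x 0) = f (ray (h k) y 0))
    (hg : ∀ x, 0 ≤ D'.F x → ∀ i j, D'.g x i j = graphMetric f x i j) (B : ℝ)
    (hBd : B = 1 / 2 * ∑ k, (surfArea (h k) / omega n) ^ (((n : ℝ) - 2) / (n - 1))) :
    D.Amin ≤ D.area D'.F ∧ D.area D'.F ≠ ⊤ ∧ 0 < B ∧
    1 / 2 * (D.Amin.toReal / omega n) ^ (((n : ℝ) - 2) / (n - 1)) ≤
      1 / 2 * ((D.area D'.F).toReal / omega n) ^ (((n : ℝ) - 2) / (n - 1)) ∧
    1 / 2 * ((D.area D'.F).toReal / omega n) ^ (((n : ℝ) - 2) / (n - 1)) ≤ B ∧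
    ((∃ j k : ι, j ≠ k) →
      1 / 2 * ((D.area D'.F).toReal / omega n) ^ (((n : ℝ) - 2) / (n - 1)) < B) ∧
    (∀ u : E n → ℝ, Smooth u →
      (∀ k x, len x = 1 → u (ray (h k) x 0) * ∑ i, pd i f (ray (h k) x 0) * x i = -1) →
      (∃ a : ℝ, (n : ℝ) / 2 - 1 < a ∧ ∀ i, BigO a fun x => u x * pd i f x) →
      (∃ b : ℝ, (n : ℝ) - 1 < b ∧ ∀ i, BigO b fun x => u x *
        ((∑ j, rest D'.K f u x i j * pd j f x) - trE (rest D'.K f u) x * pd i f x)) →
      (∀ x, 0 < D'.F x → tr D'.g (rest D'.K f u) x ^ 2 - normSq D'.g (rest D'.K f u) x +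
        2 * (∑ i, pd i u x * ((∑ j, rest D'.K f u x i j * pd j f x) -
          trE (rest D'.K f u) x * pd i f x)) / slope f x ≤
        2 * (mu D'.g D'.K x - u x / slope f x * ∑ j, pd j f x * mom D'.g D'.K j x)) →
      B ≤ m) ∧
    (∀ P : Fin n → ℝ, D.IsMomentum P → ∀ (Y : Fin n → E n → ℝ) (y : Fin n → ℝ),
      (∀ i, Smooth (Y i)) →
      (∃ a : ℝ, (n : ℝ) / 2 - 1 < a ∧ ∀ i, BigO a fun x => Y i x - y i) →
      (∀ k x, len x = 1 → ∃ l : ℝ, 1 ≤ l ∧
        ∀ i, Y i (ray (h k) x 0) = -(l * (x i / slope f (ray (h k) x 0) ^ 2))) →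
      (∀ x, 0 < D'.F x → slope f x * (vecLen D'.g Y x * mu D'.g D'.K x +
        piDer D'.g D'.K Y x) ≤ scal D'.g x) →
      B ≤ m - (∑ j, y j * P j) / 2 ∧
      ((∀ j, m * y j = 2 * P j) → ∑ j, y j ^ 2 < 4 →
        √(∑ j, P j ^ 2) < m ∧ B ≤ √(m ^ 2 - ∑ j, P j ^ 2))) := by
  have : Fact (3 ≤ n) := ⟨hn⟩
  have hAF' := Vale.Agent.P366.KSR.cut_AF hO hAF
  have hm' := Vale.Agent.P366.KSR.cut_energy hO hm
  have hB : Bodies D'.F fun k => supC (hs k) :=
    bodies_of hs D'.dom.1.continuous (fun j k hjk y => by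
      by_contra hcon
      push Not at hcon
      exact hsep j k hjk y ⟨fun x hx => (hcon x hx).1, fun x hx => (hcon x hx).2⟩) hS
  obtain ⟨C, hC⟩ : ∃ C : ι → NullCone n, C = fun k => supC (hs k) := ⟨_, rfl⟩
  rw [← hC] at hB
  have hbp : ∀ k x, ‖x‖ = 1 → bp (C k) x = ray (h k) x 0 := fun k x hx => by
    rw [hC]; exact bp_sup (hs k) hx
  have har : ∀ k, SI (fun x => dts (C k).H ((C k).U x) x) = surfArea (h k) := fun k => by
    rw [surfArea_eq2]
    exact SI_congr fun x hx => by rw [hC]; exact dts_sup (hs k) hx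
  have hlev' : ∀ k x y, ‖x‖ = 1 → ‖y‖ = 1 → f (bp (C k) x) = f (bp (C k) y) :=
    fun k x y hx hy => by rw [hbp k x hx, hbp k y hy]; exact hlev k x y hx hy
  have hb : B = bArea C := by
    rw [hBd]
    unfold bArea
    rw [Vale.Agent.P366.KSN.omega_om, Finset.mul_sum]
    exact Finset.sum_congr rfl fun k _ => by rw [har]
  rw [hb]
  obtain ⟨p1, p2, p3, p4, p5, p6⟩ :=
    pen_gen (nonempty_bodies hB) (Vale.Agent.P366.KSR.cut_Amin hO)
      (Vale.Agent.P366.CH.C745.area_bodies_cut hB hO hf hg hlev')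
  refine ⟨p1, p2, p3, p4, p5, p6, ?_, ?_⟩
  · intro u hu hua hdec hdecM hin
    refine energyM hAF' hT hm' hB hf hu hg hlev' (fun k x hx => ?_) hdec hdecM hin
    rw [hbp k x hx]
    exact hua k x hx
  · intro P hP Y y hY hYa hYS hstar
    refine energyP hAF' hDEC hT hm' (Vale.Agent.P366.KSR.cut_momentum hO hP) hB hf hg hlev' hY hYa
      (fun k x hx => ?_) hstar
    rw [hbp k x hx]
    exact hYS k x hx

end Vale.Agent.H745C
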