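import Vale.Agent.P366.H745.CH.Bod

/-! Functions which are constant on a strictly convex hypersurface. -/

open MeasureTheory Metric Filter Topology Set
open scoped ContDiff ENNReal

noncomputable section
namespace Vale.Agent.P366.CH

open Vale.Agent.P366 (pd E flux fderiv_eq_sum_pd)
open Vale.Agent.P366.H353.N
open Vale.Agent.P366.Kerr (NullCone Psi)
open Vale.Agent.P366.KSN (Y dts sg Ms bflux OO mem_OO)

variable {n : ℕ} {h : E n → ℝ} {x z : E n}

/-- The point with the normal `z`. -/
def gp (h : E n → ℝ) (z : E n) : E n := WithLp.toLp 2 fun i => pd i h z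

/-- The matrix `D²h + x xᵀ`. -/
def hm (h : E n → ℝ) (x : E n) : Matrix (Fin n) (Fin n) ℝ :=
  Matrix.of fun i j => hs h i j x + x i * x j

lemma hs_x (sh : Sm h) (hh : Hom 1 h) (hx : x ≠ 0) (i : Fin n) : ∑ l, x l * hs h i l x = 0 := by
  have h1 := ((hh.pd sh i)).euler (sh.pd i) hx
  have h2 : ∑ l, x l * hs h i l x = ∑ l, x l * pd l (pd i h) x :=
    Finset.sum_congr rfl fun l _ => by rw [hs_symm sh hx i l]; rfl
  rw [h2, h1]
  norm_num

lemma gp_cd (sh : Sm h) (hz : z ≠ 0) : ContDiffAt ℝ ∞ (gp h) z := by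
  rw [contDiffAt_euclidean]
  exact fun i => (sh.pd i) z hz

lemma pd_comp (sh : Sm h) {F : E n → ℝ} (hF : ContDiff ℝ ∞ F) (hz : z ≠ 0) (k : Fin n) :
    pd k (fun z => F (gp h z)) z = ∑ l, pd l F (gp h z) * hs h k l z := by
  have hG : DifferentiableAt ℝ (gp h) z := (gp_cd sh hz).differentiableAt (by simp)
  have hFd : DifferentiableAt ℝ F (gp h z) := (hF.differentiable (by simp)) _
  have h1 := hFd.hasFDerivAt.comp z hG.hasFDerivAt
  unfold Vale.Agent.P366.pd
  rw [show (fun z => F (gp h z)) = F ∘ gp h from rfl, h1.fderiv]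
  rw [ContinuousLinearMap.comp_apply, fderiv_eq_sum_pd]
  refine Finset.sum_congr rfl fun i _ => ?_
  have h4 : HasFDerivAt (fun z => gp h z i)
      ((EuclideanSpace.proj (𝕜 := ℝ) i : E n →L[ℝ] ℝ).comp (fderiv ℝ (gp h) z)) z :=
    (EuclideanSpace.proj (𝕜 := ℝ) i : E n →L[ℝ] ℝ).hasFDerivAt.comp _ hG.hasFDerivAt
  have h5 : hs h k i z = pd k (fun z => gp h z i) z := rfl
  rw [h5]
  unfold Vale.Agent.P366.pd
  rw [h4.fderiv]
  change (fderiv ℝ (gp h) z (EuclideanSpace.single k 1)) i * _ =
    _ * (fderiv ℝ (gp h) z (EuclideanSpace.single k 1)) i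
  ring

lemma Sm_comp (sh : Sm h) {F : E n → ℝ} (hF : ContDiff ℝ ∞ F) : Sm fun z => F (gp h z) :=
  fun _ hz => (hF.contDiffAt).comp _ (gp_cd sh hz)

lemma cd_pd {F : E n → ℝ} (hF : ContDiff ℝ ∞ F) (i : Fin n) : ContDiff ℝ ∞ (pd i F) :=
  (hF.fderiv_right (m := ∞) (by simp)).clm_apply contDiff_const

theorem lev_gp (sh : Sm h) (hh : Hom 1 h) (hx : ‖x‖ = 1) (hdet : (hm h x).det ≠ 0)
    {F : E n → ℝ} (hF : ContDiff ℝ ∞ F) {c : ℝ} (hc : ∀ z, z ≠ 0 → F (gp h z) = c) :
    (∀ i, pd i F (gp h x) = (∑ j, pd j F (gp h x) * x j) * x i) ∧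
    (∑ i, hs F i i (gp h x)) - ∑ i, ∑ j, x i * x j * hs F i j (gp h x) =
      ((hm h x)⁻¹.trace - 1) * (∑ j, pd j F (gp h x) * x j) := by
  have hx0 := ne_zero_of_one hx
  have hxx : ∑ i, x i * x i = 1 := sum_mul_self hx
  have h1 : ∀ z, z ≠ 0 → ∀ k, ∑ l, pd l F (gp h z) * hs h k l z = 0 := fun z hz k => by
    rw [← pd_comp sh hF hz k, pd_congr' (f := fun _ => c) hc hz, Vale.Agent.P366.pd_const]
  set M := hm h x with hM
  set N := M⁻¹ with hN
  have hu : IsUnit M.det := isUnit_iff_ne_zero.mpr hdet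
  have hMN : M * N = 1 := Matrix.mul_nonsing_inv M hu
  have hNM : N * M = 1 := Matrix.nonsing_inv_mul M hu
  set v : Fin n → ℝ := fun i => x i with hv
  set p : Fin n → ℝ := fun l => pd l F (gp h x) with hp
  set a := ∑ j, pd j F (gp h x) * x j with ha
  have hMx : M.mulVec v = v := by
    funext i
    simp only [Matrix.mulVec, dotProduct, hM, hm, Matrix.of_apply, add_mul, Finset.sum_add_distrib]
    have e1 : ∑ j, hs h i j x * v j = 0 := by
      rw [← hs_x sh hh hx0 i]
      exact Finset.sum_congr rfl fun j _ => mul_comm _ _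
    have e2 : ∑ j, x i * x j * v j = x i := by
      have : ∀ j, x i * x j * v j = x i * (x j * x j) := fun j => by rw [hv]; ring
      simp only [this, ← Finset.mul_sum, hxx, mul_one]
    rw [e1, e2, zero_add]
  have hNx : N.mulVec v = v := by
    conv_lhs => rw [← hMx]
    rw [Matrix.mulVec_mulVec, hNM, Matrix.one_mulVec]
  have hMp : M.mulVec p = a • v := by
    funext i
    simp only [Matrix.mulVec, dotProduct, hM, hm, Matrix.of_apply, add_mul, Finset.sum_add_distrib,
      Pi.smul_apply, smul_eq_mul]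
    have e1 : ∑ j, hs h i j x * p j = 0 := by
      rw [← h1 x hx0 i]
      exact Finset.sum_congr rfl fun j _ => mul_comm _ _
    have e2 : ∑ j, x i * x j * p j = a * v i := by
      rw [ha, Finset.sum_mul]
      exact Finset.sum_congr rfl fun j _ => by rw [hp, hv]; ring
    rw [e1, e2, zero_add]
  have hpv : p = a • v := by
    have e : N.mulVec (M.mulVec p) = p := by rw [Matrix.mulVec_mulVec, hNM, Matrix.one_mulVec]
    rw [← e, hMp, Matrix.mulVec_smul, hNx]
  have hpi : ∀ l, pd l F (gp h x) = a * x l := fun l => by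
    have := congrFun hpv l
    simpa [hp, hv] using this
  refine ⟨hpi, ?_⟩
  clear_value a
  -- second derivatives
  have hF1 : ∀ l, ContDiff ℝ ∞ (pd l F) := cd_pd hF
  have h2 : ∀ k m, ∑ l, ∑ r, hs F r l (gp h x) * hs h m r x * hs h k l x = a * hs h k m x := by
    intro k m
    have e1 : pd m (fun z => ∑ l, pd l F (gp h z) * hs h k l z) x = 0 := by
      rw [pd_congr' (f := fun _ => (0 : ℝ)) (fun z hz => h1 z hz k) hx0,
        Vale.Agent.P366.pd_const]
    rw [pd_sum' Finset.univ (fun l => (Sm_comp sh (hF1 l)).mul (sh.hs k l)) hx0] at e1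
    have e2 : ∀ l, pd m (fun z => pd l F (gp h z) * hs h k l z) x =
        a * (x l * pd m (hs h k l) x) + ∑ r, hs F r l (gp h x) * hs h m r x * hs h k l x := by
      intro l
      rw [pd_mul' (Sm_comp sh (hF1 l)) (sh.hs k l) hx0, pd_comp sh (hF1 l) hx0, hpi l,
        Finset.sum_mul]
      congr 1
      · ring
    simp only [e2, Finset.sum_add_distrib, ← Finset.mul_sum] at e1
    have e3 : ∑ l, x l * pd m (hs h k l) x = - hs h k m x := by
      have e4 : pd m (fun z => ∑ l, z l * hs h k l z) x = 0 := by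
        rw [pd_congr' (f := fun _ => (0 : ℝ)) (fun z hz => hs_x sh hh hz k) hx0,
          Vale.Agent.P366.pd_const]
      rw [pd_sum' Finset.univ (fun l => (Sm.coord l).mul (sh.hs k l)) hx0] at e4
      have e5 : ∀ l, pd m (fun z => z l * hs h k l z) x =
          x l * pd m (hs h k l) x + kd m l * hs h k l x := by
        intro l
        rw [pd_mul' (Sm.coord l) (sh.hs k l) hx0, pd_coord']
      simp only [e5, Finset.sum_add_distrib] at e4
      rw [sum_kd (fun l => hs h k l x) m] at e4
      linarith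
    rw [e3] at e1
    linarith
  set B : Matrix (Fin n) (Fin n) ℝ := Matrix.of fun i j => hs h i j x with hB
  set F2 : Matrix (Fin n) (Fin n) ℝ := Matrix.of fun i j => hs F i j (gp h x) with hF2
  set Q : Matrix (Fin n) (Fin n) ℝ := Matrix.of fun i j => x i * x j with hQ
  have hBs : B.transpose = B := by
    ext i j
    simp only [hB, Matrix.transpose_apply, Matrix.of_apply]
    exact hs_symm sh hx0 j i
  have hBFB : B * F2 * B = a • B := by
    ext m k
    rw [Matrix.smul_apply, smul_eq_mul, Matrix.mul_apply]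
    have e1 : ∀ l, (B * F2) m l * B l k = ∑ r, hs F r l (gp h x) * hs h m r x * hs h k l x := by
      intro l
      rw [Matrix.mul_apply, Finset.sum_mul]
      refine Finset.sum_congr rfl fun r _ => ?_
      simp only [hB, hF2, Matrix.of_apply]
      rw [hs_symm sh hx0 l k]
      ring
    simp only [e1]
    rw [h2 k m]
    simp only [hB, Matrix.of_apply]
    rw [hs_symm sh hx0 k m]
  have hMB : M = B + Q := rfl
  have hNQ : N * Q = Q := by
    ext i j
    rw [Matrix.mul_apply]
    have e1 : ∑ l, N i l * Q l j = (N.mulVec v) i * x j := by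
      simp only [Matrix.mulVec, dotProduct, Finset.sum_mul]
      exact Finset.sum_congr rfl fun l _ => by simp only [hQ, Matrix.of_apply, hv]; ring
    rw [e1, hNx]
    rfl
  have hMs : M.transpose = M := by
    rw [hMB, Matrix.transpose_add, hBs]
    congr 1
    ext i j
    simp only [hQ, Matrix.transpose_apply, Matrix.of_apply]
    ring
  have hNs : N.transpose = N := by rw [hN, Matrix.transpose_nonsing_inv, hMs]
  have hQs : Q.transpose = Q := by
    ext i j
    simp only [hQ, Matrix.transpose_apply, Matrix.of_apply]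
    ring
  have hQN : Q * N = Q := by
    have := congrArg Matrix.transpose hNQ
    rwa [Matrix.transpose_mul, hNs, hQs] at this
  have hNB : N * B = 1 - Q := by
    have e : B = M - Q := by rw [hMB]; simp
    rw [e, Matrix.mul_sub, hNM, hNQ]
  have hBN : B * N = 1 - Q := by
    have e : B = M - Q := by rw [hMB]; simp
    rw [e, Matrix.sub_mul, hMN, hQN]
  have hQQ : Q * Q = Q := by
    ext i j
    rw [Matrix.mul_apply]
    have e : ∀ l, Q i l * Q l j = (x i * x j) * (x l * x l) := fun l => by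
      simp only [hQ, Matrix.of_apply]; ring
    simp only [e, ← Finset.mul_sum, hxx, mul_one]
    rfl
  have hPP : (1 - Q) * (1 - Q) = 1 - Q := by
    rw [Matrix.sub_mul, Matrix.one_mul, Matrix.mul_sub, Matrix.mul_one, hQQ]
    simp
  have h3 : (1 - Q) * F2 * (1 - Q) = a • ((1 - Q) * N) := by
    calc (1 - Q) * F2 * (1 - Q) = N * (B * F2 * B) * N := by
          rw [← hNB]
          conv_lhs => rw [show N * B * F2 * (N * B) = N * B * F2 * (1 - Q) by rw [hNB], ← hBN]
          simp only [Matrix.mul_assoc]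
      _ = a • ((1 - Q) * N) := by
          rw [hBFB, Matrix.mul_smul, Matrix.smul_mul, hNB]
  have h4 := congrArg Matrix.trace h3
  rw [Matrix.trace_mul_comm, ← Matrix.mul_assoc, hPP, Matrix.trace_smul, smul_eq_mul,
    Matrix.sub_mul, Matrix.one_mul, Matrix.sub_mul, Matrix.one_mul, hQN, Matrix.trace_sub,
    Matrix.trace_sub] at h4
  have h5 : Q.trace = 1 := by
    rw [← hxx]
    rfl
  have h6 : (Q * F2).trace = ∑ i, ∑ j, x i * x j * hs F i j (gp h x) := by
    unfold Matrix.trace
    refine (Finset.sum_congr rfl fun i _ => ?_).trans Finset.sum_comm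
    rw [Matrix.diag_apply, Matrix.mul_apply]
    exact Finset.sum_congr rfl fun j _ => by
      simp only [hQ, hF2, Matrix.of_apply]
      ring
  rw [h5, h6] at h4
  have h7 : F2.trace = ∑ i, hs F i i (gp h x) := rfl
  rw [h7] at h4
  rw [h4]
  ring

end Vale.Agent.P366.CH
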