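import Vale.Agent.P366.H745.CH.Energy
import Vale.Agent.P366.H45.G20

/-! The flux inequality outside several convex bodies, for fields which are smooth near the
region only. -/

open MeasureTheory Metric Filter Topology Set
open scoped ContDiff ENNReal Manifold

noncomputable section
namespace Vale.Agent.H745C

open Vale.Agent.P366 (flux)
open Vale.Agent.P366.CH
open Vale.Agent.P366.H353.N (SI SI_mono SI_congr)
open Vale.Agent.P366.Kerr (NullCone)
open Vale.Agent.P366.KSN (Y dts sg bflux OO dts_pos sg_cont dts_cont smU bflux_cont stmt_pd)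
open Vale.Agent.P366.H375.CH (stokes_bodies_le)
open Vale.Agent.P366.Stmt

variable {n : ℕ}

/-- A field which is continuously differentiable near a closed set agrees near it with a globally
continuously differentiable field. -/
lemma exists_ext {S : Set (E n)} (hS : IsClosed S) {Z : Fin n → E n → ℝ}
    (hZ : ∀ x ∈ S, ∀ i, ContDiffAt ℝ 1 (Z i) x) :
    ∃ Z' : Fin n → E n → ℝ, (∀ i, ContDiff ℝ 1 (Z' i)) ∧
      ∀ x ∈ S, ∀ᶠ y in 𝓝 x, ∀ i, Z' i y = Z i y := by
  have hU : IsOpen {x : E n | ∀ i, ContDiffAt ℝ 1 (Z i) x} := by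
    have : {x : E n | ∀ i, ContDiffAt ℝ 1 (Z i) x} = ⋂ i, {x | ContDiffAt ℝ 1 (Z i) x} := by
      ext; simp
    rw [this]
    exact isOpen_iInter_of_finite fun i => isOpen_iff_mem_nhds.2 fun x hx =>
      ContDiffAt.eventually hx (by simp)
  have hd : Disjoint ({x : E n | ∀ i, ContDiffAt ℝ 1 (Z i) x}ᶜ) S :=
    disjoint_left.2 fun x hx hxS => hx fun i => hZ x hxS i
  obtain ⟨χ, h0, h1, -⟩ := exists_contMDiffMap_zero_one_nhds_of_isClosed 𝓘(ℝ, E n)
    hU.isClosed_compl hS hd (n := 1)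
  have hχ : ContDiff ℝ 1 χ := χ.contMDiff.contDiff
  refine ⟨fun i x => χ x * Z i x, fun i => contDiff_iff_contDiffAt.2 fun x => ?_,
    fun x hx => ?_⟩
  · by_cases hx : ∀ i, ContDiffAt ℝ 1 (Z i) x
    · exact hχ.contDiffAt.mul (hx i)
    · have h2 : ∀ᶠ y in 𝓝 x, χ y = 0 := by
        have := eventually_nhdsSet_iff_forall.1 h0 x hx
        exact this
      exact (contDiffAt_const (c := (0 : ℝ))).congr_of_eventuallyEq
        (h2.mono fun y hy => by simp only [hy, zero_mul])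
  · have h2 : ∀ᶠ y in 𝓝 x, χ y = 1 := eventually_nhdsSet_iff_forall.1 h1 x hx
    exact h2.mono fun y hy i => by simp only [hy, one_mul]

variable {ι : Type} [Fintype ι] {C : ι → NullCone n}

/-- The flux inequality, for fields which are smooth near the region only. -/
theorem flux_loc [Fact (3 ≤ n)] {D : Exterior n} (hB : Bodies D.F C) {Z : Fin n → E n → ℝ}
    (hZ : ∀ x, 0 ≤ D.F x → ∀ i, ContDiffAt ℝ 1 (Z i) x)
    (hpos : ∀ y, 0 < D.F y → 0 ≤ ∑ i, pd i (Z i) y)
    (hbd : ∀ k x, ‖x‖ = 1 → mc (C k) x ≤ ∑ i, Z i (bp (C k) x) * x i) {e : ℝ}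
    (he : Tendsto (flux Z) atTop (𝓝 e)) :
    ∑ k, SI (fun x => sg (C k).H ((C k).U x) x) ≤ e := by
  obtain ⟨Z', hZ', hZe⟩ := exists_ext (S := {x : E n | 0 ≤ D.F x})
    (isClosed_le continuous_const D.dom.1.continuous) hZ
  obtain ⟨R0, hcov⟩ := cov hB
  obtain ⟨R1, hR1⟩ := D.dom.2.2.2
  have he' : Tendsto (flux Z') atTop (𝓝 e) := by
    refine he.congr' ?_
    filter_upwards [eventually_gt_atTop (max R1 0)] with ρ hρ
    refine Vale.Agent.H45G.flux_congr ((le_max_right _ _).trans hρ.le) fun x hx i => ?_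
    have h1 : 0 ≤ D.F x := (hR1 x (by
      show R1 < ‖x‖
      rw [hx]
      exact (le_max_left _ _).trans_lt hρ)).le
    exact ((hZe x h1).self_of_nhds i).symm
  have hd : ∀ y, (∀ k, y ∈ OO (C k)) → 0 ≤ ∑ i, Vale.Agent.P366.pd i (Z' i) y := by
    intro y hy
    have h0 := hB.pos_out D.dom.1 D.dom.2.1 hy
    have h1 := hpos y h0
    have h2 : ∀ i, pd i (Z i) y = Vale.Agent.P366.pd i (Z' i) y := fun i => by
      rw [← stmt_pd (((hZ' i).differentiable (by simp)) y) i]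
      refine (Vale.Agent.H45G.pd_congr' ?_ i).symm
      exact (hZe y h0.le).mono fun z hz => hz i
    simpa only [h2] using h1
  have h3 := stokes_bodies_le hB.sep hcov hZ' hd he'
  refine le_trans (Finset.sum_le_sum fun k _ => ?_) h3
  obtain ⟨ρ, hρ⟩ := hB.rad k
  refine SI_sg_le (C k) hρ hZ' fun x hx => ?_
  have h4 : ∀ i, Z' i (bp (C k) x) = Z i (bp (C k) x) :=
    (hZe _ (hB.bdr k x hx).ge).self_of_nhds
  simp only [h4]
  exact hbd k x hx

/-- The bound for the sum of the area terms. -/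
theorem bound_loc [Fact (3 ≤ n)] {D : Exterior n} (hB : Bodies D.F C) {Z : Fin n → E n → ℝ}
    (hZ : ∀ x, 0 ≤ D.F x → ∀ i, ContDiffAt ℝ 1 (Z i) x)
    (hpos : ∀ y, 0 < D.F y → 0 ≤ ∑ i, pd i (Z i) y)
    (hbd : ∀ k x, ‖x‖ = 1 → mc (C k) x ≤ ∑ i, Z i (bp (C k) x) * x i) {m S : ℝ}
    (he : Tendsto (flux Z) atTop (𝓝 (2 * (((n : ℝ) - 1) * Vale.Agent.P366.omega n * m) -
      ((n : ℝ) - 1) * Vale.Agent.P366.omega n * S))) :
    bArea C ≤ m - S / 2 :=
  bArea_le hB.rad (flux_loc hB hZ hpos hbd he)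

end Vale.Agent.H745C
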