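import Vale.Agent.P366.H745.CH.Energy
import Vale.Agent.P366.H474.N.FarG
import Vale.Agent.P366.H45.G17

/-! From the energy bound to the Penrose inequality, several convex bodies. -/

open MeasureTheory Metric Filter Topology Set
open scoped ContDiff ENNReal

noncomputable section
namespace Vale.Agent.H745C

open Vale.Agent.P366.CH
open Vale.Agent.P366.H353.N (SI om)
open Vale.Agent.P366.Kerr (NullCone)
open Vale.Agent.P366.KSN (Y dts dts_pos dts_cont smU SI_pos)
open Vale.Agent.P366.Stmt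
open Vale.Agent.H45G

variable {n : ℕ} {ι : Type} [Fintype ι] {C : ι → NullCone n}

omit [Fintype ι] in
lemma nonempty_bodies {D : Exterior n} (hB : Bodies D.F C) : Nonempty ι := by
  by_contra hcon
  rw [not_nonempty_iff] at hcon
  obtain ⟨x, hx⟩ := D.bdry
  have := hB.pos_out D.dom.1 D.dom.2.1 (y := x) fun k => (hcon.false k).elim
  rw [hx] at this
  exact lt_irrefl _ this

omit [Fintype ι] in
lemma ar_pos [Fact (3 ≤ n)] (k : ι) : 0 < SI (fun x => dts (C k).H ((C k).U x) x) / om n :=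
  div_pos (SI_pos (dts_cont (C k) (smU (C k))) fun _ hx => dts_pos (C k) hx le_rfl)
    Vale.Agent.P366.H353.N.om_pos

/-- The areas. -/
theorem pen_gen [Fact (3 ≤ n)] (hne : Nonempty ι) {a A : ℝ≥0∞} (hAm : a ≤ A)
    (hA : A ≤ ENNReal.ofReal (∑ k, SI (fun x => dts (C k).H ((C k).U x) x))) :
    a ≤ A ∧ A ≠ ⊤ ∧ 0 < bArea C ∧
    1 / 2 * (a.toReal / omega n) ^ (((n : ℝ) - 2) / (n - 1)) ≤
      1 / 2 * (A.toReal / omega n) ^ (((n : ℝ) - 2) / (n - 1)) ∧
    1 / 2 * (A.toReal / omega n) ^ (((n : ℝ) - 2) / (n - 1)) ≤ bArea C ∧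
    ((∃ j k : ι, j ≠ k) →
      1 / 2 * (A.toReal / omega n) ^ (((n : ℝ) - 2) / (n - 1)) < bArea C) := by
  have hn := Fact.out (p := 3 ≤ n)
  have hn3 : (3 : ℝ) ≤ n := by exact_mod_cast hn
  have hom : 0 < om n := Vale.Agent.P366.H353.N.om_pos
  have htop : A ≠ ⊤ := ne_top_of_le_ne_top ENNReal.ofReal_ne_top hA
  have hp := fun k => ar_pos (C := C) (n := n) k
  have hsum : ∑ k, SI (fun x => dts (C k).H ((C k).U x) x) / om n =
      (∑ k, SI (fun x => dts (C k).H ((C k).U x) x)) / om n := by rw [Finset.sum_div]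
  have hs0 : 0 ≤ ∑ k, SI (fun x => dts (C k).H ((C k).U x) x) := by
    refine Finset.sum_nonneg fun k _ => ?_
    have := hp k
    exact ((div_pos_iff_of_pos_right hom).1 this).le
  have h1 : A.toReal ≤ ∑ k, SI (fun x => dts (C k).H ((C k).U x) x) := by
    have := ENNReal.toReal_mono ENNReal.ofReal_ne_top hA
    rwa [ENNReal.toReal_ofReal hs0] at this
  have h0 : a.toReal ≤ A.toReal := ENNReal.toReal_mono htop hAm
  set p : ℝ := ((n : ℝ) - 2) / (n - 1) with hpd
  have hp0 : 0 < p := div_pos (by linarith) (by linarith)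
  have hp1 : p < 1 := by rw [hpd, div_lt_one (by linarith)]; linarith
  rw [Vale.Agent.P366.KSN.omega_om]
  have h2 : (A.toReal / om n) ^ p ≤
      (∑ k, SI (fun x => dts (C k).H ((C k).U x) x) / om n) ^ p := by
    rw [hsum]
    exact Real.rpow_le_rpow (div_nonneg ENNReal.toReal_nonneg hom.le)
      (div_le_div_of_nonneg_right h1 hom.le) hp0.le
  have h3 : (a.toReal / om n) ^ p ≤ (A.toReal / om n) ^ p :=
    Real.rpow_le_rpow (div_nonneg ENNReal.toReal_nonneg hom.le)
      (div_le_div_of_nonneg_right h0 hom.le) hp0.le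
  have hb : bArea C = 1 / 2 * ∑ k, (SI (fun x => dts (C k).H ((C k).U x) x) / om n) ^ p := by
    unfold bArea
    rw [← hpd, Finset.mul_sum]
  refine ⟨hAm, htop, ?_, by linarith, ?_, ?_⟩
  · unfold bArea
    exact Finset.sum_pos (fun k _ => mul_pos (by norm_num) (Real.rpow_pos_of_pos (hp k) _))
      Finset.univ_nonempty
  · have h4 := rpow_sum_le Finset.univ
      (fun k => SI (fun x => dts (C k).H ((C k).U x) x) / om n) (fun k => (hp k).le) hp0 hp1.le
    rw [hb]
    linarith
  · rintro ⟨j, k, hjk⟩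
    have h4 := rpow_sum_lt
      (fun k => SI (fun x => dts (C k).H ((C k).U x) x) / om n) hp hp0 hp1 hjk
    rw [hb]
    linarith

end Vale.Agent.H745C
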